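import Crest.Agent.N76.Red.Defs

/-! # Row 76, PLANK lemma (helper95): counting tools.
`core` (simultaneous removal of small fibres), fibre counting, boxes and balls in `V n`. -/

set_option autoImplicit false

open Finset
open scoped RealInnerProductSpace

namespace Crest.Agent.N76.Pk

open Crest.Agent.N76.Red (V)

/-- upper bound by fibres -/
lemma card_le_fib {β γ : Type*} [DecidableEq γ] (W : Finset β) (f : β → γ) (E : Finset γ)
    (hf : ∀ w ∈ W, f w ∈ E) {K : ℝ} (h : ∀ c ∈ E, ((W.filter fun w => f w = c).card : ℝ) ≤ K) :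
    (W.card : ℝ) ≤ E.card * K := by
  rw [card_eq_sum_card_fiberwise (f := f) (s := W) (t := E) hf]
  push_cast
  calc ∑ c ∈ E, ((W.filter fun w => f w = c).card : ℝ) ≤ ∑ _c ∈ E, K := sum_le_sum h
    _ = E.card * K := by rw [sum_const, nsmul_eq_mul]

/-- lower bound by fibres -/
lemma le_card_fib {β γ : Type*} [DecidableEq γ] (W : Finset β) (f : β → γ) (E : Finset γ)
    {K : ℝ} (h : ∀ c ∈ E, K ≤ ((W.filter fun w => f w = c).card : ℝ)) :
    E.card * K ≤ (W.card : ℝ) := by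
  classical
  have h1 : ((W.filter fun w => f w ∈ E).card : ℝ) =
      ∑ c ∈ E, ((W.filter fun w => f w = c).card : ℝ) := by
    rw [card_eq_sum_card_fiberwise (f := f) (s := W.filter fun w => f w ∈ E) (t := E)
      (fun w hw => (mem_filter.1 hw).2)]
    push_cast
    refine sum_congr rfl fun c hc => ?_
    congr 2
    ext w
    simp only [mem_filter]
    constructor
    · rintro ⟨⟨a, _⟩, b⟩; exact ⟨a, b⟩
    · rintro ⟨a, b⟩; exact ⟨⟨a, b ▸ hc⟩, b⟩
  calc E.card * K = ∑ _c ∈ E, K := by rw [sum_const, nsmul_eq_mul]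
    _ ≤ ∑ c ∈ E, ((W.filter fun w => f w = c).card : ℝ) := sum_le_sum h
    _ = _ := h1.symm
    _ ≤ W.card := by exact_mod_cast card_filter_le _ _

/-- **Core lemma**: remove all small fibres of finitely many maps at once. -/
lemma core {β γ κ : Type*} [DecidableEq β] [DecidableEq γ] (I : Finset β) (K : Finset κ)
    (f : κ → β → γ) (θ : κ → ℝ) (hθ : ∀ j ∈ K, 0 ≤ θ j) :
    ∃ J ⊆ I, (I.card : ℝ) - ∑ j ∈ K, θ j * (I.image (f j)).card ≤ J.card ∧
      ∀ j ∈ K, ∀ p ∈ J, θ j ≤ ((J.filter fun q => f j q = f j p).card : ℝ) := by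
  set Φ : Finset β → ℝ := fun J => (J.card : ℝ) - ∑ j ∈ K, θ j * (J.image (f j)).card with hΦ
  obtain ⟨J, hJ, hmax⟩ := exists_max_image I.powerset Φ ⟨∅, empty_mem_powerset _⟩
  have hJI := mem_powerset.1 hJ
  refine ⟨J, hJI, ?_, fun j hj p hp => ?_⟩
  · have h1 := hmax I (mem_powerset_self _)
    have h2 : 0 ≤ ∑ j ∈ K, θ j * ((J.image (f j)).card : ℝ) :=
      sum_nonneg fun j hj => mul_nonneg (hθ j hj) (Nat.cast_nonneg _)
    simp only [hΦ] at h1
    linarith
  · classical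
    set J' := J.filter fun q => ¬ f j q = f j p with hJ'
    have h1 := hmax J' (mem_powerset.2 ((filter_subset _ _).trans hJI))
    have h2 : ((J.filter fun q => f j q = f j p).card : ℝ) + J'.card = J.card := by
      exact_mod_cast card_filter_add_card_filter_not (s := J) (fun q => f j q = f j p)
    have h3 : ∑ i ∈ K, θ i * ((J'.image (f i)).card : ℝ) + θ j ≤
        ∑ i ∈ K, θ i * ((J.image (f i)).card : ℝ) := by
      rw [← add_sum_erase K _ hj, ← add_sum_erase K _ hj]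
      have a1 : ∑ i ∈ K.erase j, θ i * ((J'.image (f i)).card : ℝ) ≤
          ∑ i ∈ K.erase j, θ i * ((J.image (f i)).card : ℝ) := by
        refine sum_le_sum fun i hi => mul_le_mul_of_nonneg_left ?_ (hθ i (mem_of_mem_erase hi))
        exact_mod_cast card_le_card (image_subset_image (filter_subset _ _))
      have a2 : (J'.image (f j)).card + 1 ≤ (J.image (f j)).card := by
        refine card_lt_card ⟨image_subset_image (filter_subset _ _), fun h => ?_⟩
        obtain ⟨q, hq, e⟩ := mem_image.1 (h (mem_image_of_mem _ hp))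
        exact (mem_filter.1 hq).2 e
      have a3 : ((J'.image (f j)).card : ℝ) + 1 ≤ (J.image (f j)).card := by exact_mod_cast a2
      nlinarith [hθ j hj]
    simp only [hΦ] at h1
    linarith

/-- number of integers `⌊u⌋` with `|u| ≤ A` -/
lemma floor_mem {u A : ℝ} (h : |u| ≤ A) : ⌊u⌋ ∈ Icc (-⌈A⌉) ⌈A⌉ := by
  rw [abs_le] at h
  rw [mem_Icc]
  constructor
  · rw [Int.le_floor]; push_cast; linarith [Int.le_ceil A, h.1]
  · exact (Int.floor_le_ceil u).trans (Int.ceil_mono h.2)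

lemma card_Icc_le {A : ℝ} (hA : 1 ≤ A) : ((Icc (-⌈A⌉) ⌈A⌉).card : ℝ) ≤ 5 * A := by
  rw [Int.card_Icc]
  have h0 : 0 ≤ ⌈A⌉ + 1 - -⌈A⌉ := by
    have : 0 ≤ ⌈A⌉ := Int.ceil_nonneg (by linarith)
    omega
  have h1 : (((⌈A⌉ + 1 - -⌈A⌉).toNat : ℕ) : ℝ) = ((⌈A⌉ + 1 - -⌈A⌉ : ℤ) : ℝ) := by
    rw [← Int.cast_natCast, Int.toNat_of_nonneg h0]
  rw [h1]
  push_cast
  linarith [Int.ceil_lt_add_one A]

lemma abs_sub_le_of_floor {u u' δ : ℝ} (hδ : 0 < δ) (h : ⌊u / δ⌋ = ⌊u' / δ⌋) : |u - u'| ≤ δ := by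
  have h2 := Int.abs_sub_lt_one_of_floor_eq_floor h
  rw [← sub_div, abs_div, abs_of_pos hδ, div_lt_one hδ] at h2
  exact h2.le

variable {n : ℕ}

open Classical in
/-- at most `K` of the points `f i`, `i ∈ F`, in every ball of radius `r` -/
def Spr {ι : Type*} (F : Finset ι) (f : ι → V n) (r K : ℝ) : Prop :=
  ∀ z : V n, ((F.filter fun i => ‖f i - z‖ ≤ r).card : ℝ) ≤ K

lemma Spr.nonneg {ι : Type*} {F : Finset ι} {f : ι → V n} {r K : ℝ} (h : Spr F f r K) : 0 ≤ K :=
  (Nat.cast_nonneg _).trans (h 0)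

lemma Spr.mono {ι : Type*} {F F' : Finset ι} {f : ι → V n} {r K K' : ℝ} (h : Spr F f r K)
    (hF : F' ⊆ F) (hK : K ≤ K') : Spr F' f r K' := by
  classical
  intro z
  refine le_trans ?_ ((h z).trans hK)
  exact_mod_cast card_le_card (by convert filter_subset_filter _ hF)

/-- points in a box (with respect to an orthonormal basis) -/
lemma Spr.box {ι : Type*} {F : Finset ι} {f : ι → V n} {r K : ℝ} (h : Spr F f r K) (hr : 0 < r)
    (B : OrthonormalBasis (Fin n) ℝ (V n)) (x₀ : V n) (θ : Fin n → ℝ) (hθ : ∀ j, r ≤ θ j)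
    (G : Finset ι) (hG : G ⊆ F) (hb : ∀ i ∈ G, ∀ j, |⟪B j, f i - x₀⟫| ≤ θ j) :
    (G.card : ℝ) ≤ K * ∏ j, (5 * (n + 1) * θ j / r) := by
  classical
  set δ : ℝ := r / (n + 1) with hδ
  have hn : (1 : ℝ) ≤ n + 1 := by linarith [Nat.cast_nonneg (α := ℝ) n]
  have hδ0 : 0 < δ := by positivity
  set φ : ι → Fin n → ℤ := fun i j => ⌊⟪B j, f i - x₀⟫ / δ⌋ with hφ
  set E := Fintype.piFinset fun j : Fin n => Icc (-⌈θ j / δ⌉) ⌈θ j / δ⌉ with hE
  have h1 : ∀ i ∈ G, φ i ∈ E := by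
    intro i hi
    rw [hE, Fintype.mem_piFinset]
    intro j
    refine floor_mem ?_
    rw [abs_div, abs_of_pos hδ0]
    exact div_le_div_of_nonneg_right (hb i hi j) hδ0.le
  have h2 : (E.card : ℝ) ≤ ∏ j, (5 * (n + 1) * θ j / r) := by
    rw [hE, Fintype.card_piFinset]
    push_cast
    refine prod_le_prod (fun j _ => Nat.cast_nonneg _) fun j _ => ?_
    have e : θ j / δ = (n + 1) * θ j / r := by rw [hδ]; field_simp
    have : 1 ≤ θ j / δ := by
      rw [e, one_le_div hr]; nlinarith [hθ j]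
    refine (card_Icc_le this).trans (le_of_eq ?_)
    rw [e]; ring
  have h3 : ∀ c ∈ E, ((G.filter fun i => φ i = c).card : ℝ) ≤ K := by
    intro c _
    rcases (G.filter fun i => φ i = c).eq_empty_or_nonempty with he | ⟨i₀, hi₀⟩
    · rw [he]; simpa using h.nonneg
    · refine le_trans ?_ (h (f i₀))
      refine Nat.cast_le.2 (card_le_card fun i hi => ?_)
      rw [mem_filter] at hi hi₀ ⊢
      refine ⟨hG hi.1, ?_⟩
      have e : φ i = φ i₀ := hi.2.trans hi₀.2.symm
      have hc : ∀ j, |⟪B j, f i - f i₀⟫| ≤ δ := by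
        intro j
        have := abs_sub_le_of_floor hδ0 (congrFun e j)
        rwa [← inner_sub_right, sub_sub_sub_cancel_right] at this
      calc ‖f i - f i₀‖ = ‖∑ j, ⟪B j, f i - f i₀⟫ • B j‖ := by rw [B.sum_repr']
        _ ≤ ∑ j, ‖⟪B j, f i - f i₀⟫ • B j‖ := norm_sum_le _ _
        _ ≤ ∑ _j : Fin n, δ := sum_le_sum fun j _ => by
            rw [norm_smul, B.orthonormal.1 j, mul_one]; exact hc j
        _ = n * δ := by simp
        _ ≤ r := by rw [hδ, ← mul_div_assoc, div_le_iff₀ (by linarith)]; nlinarith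
  calc (G.card : ℝ) ≤ E.card * K := card_le_fib G φ E h1 h3
    _ ≤ _ := by rw [mul_comm]; exact mul_le_mul_of_nonneg_left h2 h.nonneg

/-- points in a larger ball -/
lemma Spr.ball {ι : Type*} {F : Finset ι} {f : ι → V n} {r K : ℝ} (h : Spr F f r K) (hr : 0 < r)
    {u : ℝ} (hu : 1 ≤ u) (x₀ : V n) (G : Finset ι) (hG : G ⊆ F)
    (hb : ∀ i ∈ G, ‖f i - x₀‖ ≤ u * r) : (G.card : ℝ) ≤ K * (5 * (n + 1) * u) ^ n := by
  have := h.box hr (EuclideanSpace.basisFun (Fin n) ℝ) x₀ (fun _ => u * r)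
    (fun _ => by nlinarith) G hG (fun i hi j => by
      refine (abs_real_inner_le_norm _ _).trans ?_
      rw [(EuclideanSpace.basisFun (Fin n) ℝ).orthonormal.1 j, one_mul]
      exact hb i hi)
  have e : 5 * ((n : ℝ) + 1) * (u * r) / r = 5 * (n + 1) * u := by field_simp
  simpa [e] using this

/-- an orthonormal basis starting with a given unit vector -/
lemma exists_basis {d : ℕ} (ν : V (d + 1)) (hν : ‖ν‖ = 1) :
    ∃ B : OrthonormalBasis (Fin (d + 1)) ℝ (V (d + 1)), B 0 = ν := by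
  have h : Orthonormal ℝ (({0} : Set (Fin (d + 1))).domRestrict fun _ => ν) := by
    constructor
    · intro i; exact hν
    · intro i j hij
      exact absurd (Subtype.ext (i.2.trans j.2.symm)) hij
  obtain ⟨B, hB⟩ := h.exists_orthonormalBasis_extension_of_card_eq (by simp)
  exact ⟨B, hB 0 rfl⟩

/-- points in a slab inside a ball -/
lemma Spr.slab {d : ℕ} {ι : Type*} {F : Finset ι} {f : ι → V (d + 1)} {r K : ℝ}
    (h : Spr F f r K) (hr : 0 < r) {u w : ℝ} (hu : 1 ≤ u) (hw : 1 ≤ w) (ν x₀ : V (d + 1))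
    (hν : ‖ν‖ = 1) (G : Finset ι) (hG : G ⊆ F)
    (hb : ∀ i ∈ G, ‖f i - x₀‖ ≤ u * r ∧ |⟪ν, f i - x₀⟫| ≤ w * r) :
    (G.card : ℝ) ≤ K * (5 * (d + 2)) ^ (d + 1) * w * u ^ d := by
  obtain ⟨B, hB⟩ := exists_basis ν hν
  have := h.box hr B x₀ (Fin.cons (w * r) fun _ => u * r)
    (fun j => by
      refine Fin.cases ?_ (fun j => ?_) j
      · simp only [Fin.cons_zero]; nlinarith
      · simp only [Fin.cons_succ]; nlinarith) G hG (fun i hi j => by
      refine Fin.cases ?_ (fun j => ?_) j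
      · simp only [Fin.cons_zero, hB]; exact (hb i hi).2
      · simp only [Fin.cons_succ]
        refine (abs_real_inner_le_norm _ _).trans ?_
        rw [B.orthonormal.1, one_mul]
        exact (hb i hi).1)
  refine this.trans (le_of_eq ?_)
  rw [Fin.prod_univ_succ]
  simp only [Fin.cons_zero, Fin.cons_succ, prod_const, card_univ, Fintype.card_fin]
  push_cast
  have e1 : 5 * ((d : ℝ) + 1 + 1) * (u * r) / r = 5 * (d + 2) * u := by field_simp; ring
  have e2 : 5 * ((d : ℝ) + 1 + 1) * (w * r) / r = 5 * (d + 2) * w := by field_simp; ring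
  rw [e1, e2, mul_pow, pow_succ]
  ring

end Crest.Agent.N76.Pk
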