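import Crest.Agent.N76.Pk.Iter
import Crest.Agent.N76.Red.Pack
import Crest.Agent.N76.L.Geo

/-! # Row 76: the PLANK lemma `L.Plank n` (helper95). -/

set_option autoImplicit false

open Finset
open scoped RealInnerProductSpace

namespace Crest.Agent.N76.Pk

open Crest.Agent.N76.Red (V)

lemma card_sep {n : ℕ} {κ : Type*} (F : Finset κ) (g : κ → V n) {δ r : ℝ} (hδ : 0 < δ)
    (hr : 0 ≤ r) (c : V n) (hs : ∀ i ∈ F, ∀ j ∈ F, i ≠ j → δ ≤ ‖g i - g j‖)
    (hb : ∀ i ∈ F, ‖g i - c‖ ≤ r * δ) : (F.card : ℝ) ≤ (2 * r + 1) ^ n := by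
  classical
  have hn : ∀ u v : V n, ‖δ⁻¹ • u - δ⁻¹ • v‖ = ‖u - v‖ / δ := fun u v => by
    rw [← smul_sub, norm_smul, norm_inv, Real.norm_eq_abs, abs_of_pos hδ, inv_mul_eq_div]
  have hinj : Set.InjOn (fun i => δ⁻¹ • g i) F := fun i hi j hj e => by
    by_contra hne
    have h1 := hs i hi j hj hne
    have h2 := hn (g i) (g j)
    simp only [] at e
    rw [e, sub_self, norm_zero, eq_comm, div_eq_zero_iff] at h2
    rcases h2 with h2 | h2 <;> linarith
  rw [← card_image_of_injOn hinj]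
  refine Red.card_le_of_sep _ (δ⁻¹ • c) hr (fun u hu => ?_) (fun u hu v hv huv => ?_)
  · obtain ⟨i, hi, rfl⟩ := mem_image.1 hu
    rw [hn, div_le_iff₀ hδ]; exact hb i hi
  · obtain ⟨i, hi, rfl⟩ := mem_image.1 hu
    obtain ⟨j, hj, rfl⟩ := mem_image.1 hv
    rw [hn, one_le_div hδ]
    exact hs i hi j hj fun e => huv (by rw [e])

lemma le_pow_of_two {B : ℝ} (hB : 2 ≤ B) {a c : ℕ} (h : a ≤ c) : (a : ℝ) ≤ B ^ c := by
  have h1 : (a : ℝ) ≤ 2 ^ a := by exact_mod_cast Nat.lt_two_pow_self.le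
  exact h1.trans ((pow_le_pow_left₀ (by norm_num) hB _).trans
    (pow_le_pow_right₀ (by linarith) h))

/-- **Plank lemma.** -/
theorem plank (n : ℕ) (hn : 1 ≤ n) : L.Plank n := by
  classical
  obtain ⟨d, rfl⟩ : ∃ d, n = d + 1 := ⟨n - 1, by omega⟩
  intro S hS
  obtain ⟨k, rfl⟩ : ∃ k, S = k + 1 := ⟨S - 1, by omega⟩
  set c₀ := 3 * (d + 1) + 1 + 5 * (d + 2) + k + 3 with hc₀
  refine ⟨c₀ * iE d k ^ (k + 1), ?_⟩
  intro Q B t₀ μ hB hQ hμ ι κ X A y ζ f Φ 𝓛 hX hbd hsep hζ hΦ hfs h𝓛 hA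
  simp only [Nat.add_sub_cancel] at hΦ hA
  have hB1 : 1 ≤ B := by linarith
  have hB0 : 0 < B := by linarith
  set Λ := B ^ c₀ with hΛ
  rw [pow_mul] at hQ ⊢
  have hiE : iE d k ^ (k + 1) ≠ 0 := pow_ne_zero _ (by unfold iE; omega)
  have hBΛ : B * (2 * B + 3) ^ (d + 1) ≤ Λ := by
    have : 2 * B + 3 ≤ B ^ 3 := by
      have : 4 ≤ B * B := by nlinarith
      nlinarith
    calc B * (2 * B + 3) ^ (d + 1) ≤ B * (B ^ 3) ^ (d + 1) := by gcongr
      _ = B ^ (3 * (d + 1) + 1) := by ring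
      _ ≤ _ := pow_le_pow_right₀ hB1 (by omega)
  have hp1 : 2 * B + 3 ≤ (2 * B + 3) ^ (d + 1) := le_self_pow₀ (by linarith) (by omega)
  have hp2 : (2 * B + 3) ^ (d + 1) ≤ Λ := le_trans (le_mul_of_one_le_left (by linarith) hB1) hBΛ
  have hΛ1 : 1 ≤ Λ := by linarith
  have hQ2 : 2 ≤ Q := by linarith [le_self_pow₀ hΛ1 hiE]
  have hQ0 : 0 < Q := by linarith
  set T := Q ^ (k + 1) with hT
  have hT1 : 1 ≤ T := one_le_pow₀ (by linarith)
  have hT0 : 0 < T := by linarith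
  set m := ⌈μ⌉₊ with hm
  have hm0 : (0 : ℝ) < m := hμ.trans_le (Nat.le_ceil μ)
  have hch : ∀ z φ, ∃ M : Finset ι, z ∈ X → φ ∈ Φ z → M ⊆ 𝓛 z φ ∧ M.card = m := by
    intro z φ
    by_cases h : z ∈ X ∧ φ ∈ Φ z
    · obtain ⟨M, h1, h2⟩ := exists_subset_card_eq (s := 𝓛 z φ) (n := m)
        (Nat.ceil_le.2 (h𝓛 z h.1 φ h.2).2.1)
      exact ⟨M, fun _ _ => ⟨h1, h2⟩⟩
    · exact ⟨∅, fun a b => absurd ⟨a, b⟩ h⟩
  choose 𝓜 h𝓜 using hch
  set D : Dat d (V (d + 1) × ℝ) ι :=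
    { x := fun z => T⁻¹ • z.1
      t := fun z => (z.2 - t₀) / T
      H := fun _ => 0
      y := fun l => T⁻¹ • (y l - (2 * t₀) • ζ l)
      v := fun l => (-2 : ℝ) • ζ l
      b := fun _ => 0
      s := fun _ => 0 } with hD
  set I := (X ×ˢ A).filter fun p => ∃ φ ∈ Φ p.1, p.2 ∈ 𝓜 p.1 φ with hI
  have hIm : ∀ p ∈ I, p.1 ∈ X ∧ p.2 ∈ A ∧ ∃ φ ∈ Φ p.1, p.2 ∈ 𝓜 p.1 φ := fun p hp => by
    simp only [hI, mem_filter, mem_product] at hp
    exact ⟨hp.1.1, hp.1.2, hp.2⟩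
  have hnT : ∀ u : V (d + 1), ‖T⁻¹ • u‖ = ‖u‖ / T := fun u => by
    rw [norm_smul, norm_inv, Real.norm_eq_abs, abs_of_pos hT0, inv_mul_eq_div]
  have hBas : Bas D X I Q T (Q ^ d * m) (T ^ (d + 1)) Λ := by
    refine ⟨?_, by positivity, hQ2, hT0, by positivity, fun c => ?_, fun p hp => (hIm p hp).1,
      fun p hp => ⟨?_, ?_⟩, fun p hp => ⟨?_, ?_⟩, fun z c => ?_⟩
    · have := le_pow_of_two hB (a := 5 * (d + 2)) (c := c₀) (by omega)
      push_cast at this; exact this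
    · refine (card_sep _ Prod.fst one_pos hT0.le (T • c) (fun z hz z' hz' e =>
        hsep z (mem_filter.1 hz).1 z' (mem_filter.1 hz').1 e) (fun z hz => ?_)).trans ?_
      · have h1 : ‖T⁻¹ • z.1 - c‖ ≤ 1 := (mem_filter.1 hz).2
        have e : T⁻¹ • z.1 - c = T⁻¹ • (z.1 - T • c) := by
          rw [smul_sub, inv_smul_smul₀ hT0.ne']
        rw [e, hnT, div_le_one hT0] at h1
        linarith
      · calc (2 * T + 1) ^ (d + 1) ≤ ((2 * B + 3) * T) ^ (d + 1) := by gcongr; nlinarith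
          _ = (2 * B + 3) ^ (d + 1) * T ^ (d + 1) := mul_pow _ _ _
          _ ≤ _ := by gcongr
    · change ‖(-2 : ℝ) • ζ p.2‖ ≤ Λ
      rw [norm_smul, Real.norm_eq_abs, abs_neg, abs_two]
      linarith [hζ _ (hIm p hp).2.1]
    · change |(0 : ℝ)| ≤ _
      rw [abs_zero]; positivity
    · obtain ⟨h1, -, φ, h3, h4⟩ := hIm p hp
      have h5 := ((h𝓛 _ h1 φ h3).2.2 _ ((h𝓜 _ _ h1 h3).1 h4)).2
      change ‖T⁻¹ • p.1.1 - (T⁻¹ • (y p.2 - (2 * t₀) • ζ p.2) +
        ((p.1.2 - t₀) / T) • (-2 : ℝ) • ζ p.2)‖ ≤ Λ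
      have e : T⁻¹ • p.1.1 - (T⁻¹ • (y p.2 - (2 * t₀) • ζ p.2) +
          ((p.1.2 - t₀) / T) • (-2 : ℝ) • ζ p.2) =
          T⁻¹ • (p.1.1 - (y p.2 - (2 * p.1.2) • ζ p.2)) := by
        rw [div_eq_inv_mul]; module
      rw [e, hnT, div_le_iff₀ hT0]
      refine h5.trans ?_
      gcongr; linarith
    · change |(0 : ℝ) - (0 + 0 * _)| ≤ _
      simp; linarith
    · set G := (I.filter fun p => p.1 = z).filter fun p => ‖D.v p.2 - c‖ ≤ 1 / Q with hG
      rcases G.eq_empty_or_nonempty with he | ⟨p₀, hp₀⟩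
      · refine le_trans (le_of_eq ?_) (show ((0 : ℕ) : ℝ) ≤ _ by simp only [Nat.cast_zero]; positivity)
        rw [Nat.cast_inj, card_eq_zero]; exact he
      have hz : z ∈ X := by
        simp only [hG, mem_filter] at hp₀
        rw [← hp₀.1.2]; exact (hIm _ hp₀.1.1).1
      set F := (Φ z).filter fun φ => ‖f φ - (-2 : ℝ)⁻¹ • c‖ ≤ (B + 1) * (1 / Q) with hF
      have h1 : (F.card : ℝ) ≤ (2 * (B + 1) + 1) ^ (d + 1) :=
        card_sep F f (by positivity) (by linarith) _ (fun i hi j hj e =>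
          hfs z hz i (mem_filter.1 hi).1 j (mem_filter.1 hj).1 e) fun i hi => (mem_filter.1 hi).2
      have h2 : G.card ≤ (F.biUnion (𝓜 z)).card := by
        refine card_le_card_of_injOn Prod.snd (fun p hp => ?_) (fun p hp p' hp' e => ?_)
        · simp only [hG, coe_filter, Set.mem_ofPred_eq, mem_filter] at hp
          obtain ⟨⟨b1, b2⟩, b3⟩ := hp
          obtain ⟨-, -, φ, h3, h4⟩ := hIm p b1
          rw [b2] at h3 h4
          refine mem_coe.2 (mem_biUnion.2 ⟨φ, mem_filter.2 ⟨h3, ?_⟩, h4⟩)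
          have h5 := ((h𝓛 _ hz φ h3).2.2 _ ((h𝓜 _ _ hz h3).1 h4)).1
          have h6 : ‖ζ p.2 - (-2 : ℝ)⁻¹ • c‖ ≤ 1 / Q := by
            have e : ζ p.2 - (-2 : ℝ)⁻¹ • c = (-2 : ℝ)⁻¹ • ((-2 : ℝ) • ζ p.2 - c) := by
              rw [smul_sub, inv_smul_smul₀ (by norm_num)]
            rw [e, norm_smul]
            refine le_trans (mul_le_of_le_one_left (norm_nonneg _) (by norm_num)) b3
          refine (norm_sub_le_norm_sub_add_norm_sub _ (ζ p.2) _).trans ?_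
          rw [norm_sub_rev]
          have : B / Q = B * (1 / Q) := by ring
          linarith
        · simp only [hG, coe_filter, Set.mem_ofPred_eq, mem_filter] at hp hp'
          exact Prod.ext (hp.1.2.trans hp'.1.2.symm) e
      have h3 : (F.biUnion (𝓜 z)).card ≤ F.card * m :=
        card_biUnion_le_card_mul _ _ _ fun φ hφ => (h𝓜 _ _ hz (mem_filter.1 hφ).1).2.le
      have h4 : (G.card : ℝ) ≤ F.card * m := by exact_mod_cast h2.trans h3
      calc _ = (G.card : ℝ) := rfl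
        _ ≤ (2 * (B + 1) + 1) ^ (d + 1) * m := h4.trans (by gcongr)
        _ ≤ Λ * m := by gcongr; rw [show 2 * (B + 1) + 1 = 2 * B + 3 by ring]; exact hp2
        _ = _ := by field_simp
  have hY : Q ^ d * m * X.card ≤ Λ * I.card := by
    have h1 := le_card_fib I Prod.fst X (K := Q ^ d * m / Λ) fun z hz => by
      set W := (Φ z ×ˢ A).filter fun w => w.2 ∈ 𝓜 z w.1 with hW
      have a1 : (Φ z).card * (m : ℝ) ≤ W.card := by
        refine le_card_fib W Prod.fst (Φ z) fun φ hφ => ?_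
        rw [← (h𝓜 _ _ hz hφ).2]
        refine Nat.cast_le.2 (card_le_card_of_injOn (fun l => (φ, l)) (fun l hl => ?_) ?_)
        · simp only [hW, coe_filter, Set.mem_ofPred_eq, mem_filter, mem_product, mem_coe] at hl ⊢
          exact ⟨⟨⟨hφ, (h𝓛 _ hz φ hφ).1 ((h𝓜 _ _ hz hφ).1 hl)⟩, hl⟩, trivial⟩
        · intro l _ l' _ e; exact (Prod.ext_iff.1 e).2
      have a2 : (W.card : ℝ) ≤ (I.filter fun p => p.1 = z).card * (2 * B + 1) ^ (d + 1) := by
        refine card_le_fib W (fun w => (z, w.2)) _ (fun w hw => ?_) fun p _ => ?_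
        · simp only [hW, hI, mem_filter, mem_product] at hw ⊢
          exact ⟨⟨⟨hz, hw.1.2⟩, w.1, hw.1.1, hw.2⟩, trivial⟩
        · refine card_sep _ (fun w => f w.1) (δ := 1 / Q) (by positivity) hB0.le (ζ p.2)
            (fun w hw w' hw' e => ?_) (fun w hw => ?_)
          · simp only [hW, mem_filter, mem_product] at hw hw'
            refine hfs z hz _ hw.1.1.1 _ hw'.1.1.1 fun e' => e (Prod.ext e' ?_)
            exact (Prod.ext_iff.1 (hw.2.trans hw'.2.symm)).2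
          · simp only [hW, mem_filter, mem_product] at hw
            have h5 := ((h𝓛 _ hz _ hw.1.1.1).2.2 _ ((h𝓜 _ _ hz hw.1.1.1).1 hw.1.2)).1
            rw [← hw.2, norm_sub_rev, mul_one_div]
            exact h5
      rw [div_le_iff₀ (by linarith)]
      calc Q ^ d * m ≤ B * (Φ z).card * m := by gcongr; exact hΦ z hz
        _ = B * ((Φ z).card * m) := by ring
        _ ≤ B * ((I.filter fun p => p.1 = z).card * (2 * B + 3) ^ (d + 1)) := by
            gcongr B * ?_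
            exact (a1.trans a2).trans (by gcongr; norm_num)
        _ = (I.filter fun p => p.1 = z).card * (B * (2 * B + 3) ^ (d + 1)) := by ring
        _ ≤ _ := by gcongr
    rw [← mul_div_assoc, div_le_iff₀ (by linarith)] at h1
    linarith
  have hBΛ' : B ≤ Λ := by linarith
  obtain ⟨w, c, I', hI', hw, ⟨p, hp⟩, -, hpl, hcnt⟩ := hBas.plank (L := A) hT
    (by have := le_pow_of_two hB (a := k + 3) (c := c₀) (by omega)
        push_cast at this; exact this)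
    (by
      rw [← card_pos, ← Nat.cast_pos (α := ℝ)]
      have : (0 : ℝ) < X.card := Nat.cast_pos.2 hX.card_pos
      have : 0 < Λ * I.card := lt_of_lt_of_le (by positivity) hY
      exact (mul_pos_iff_of_pos_left (by linarith)).1 this)
    (fun p hp => (hIm p hp).2.1)
    (fun z hz => by
      obtain ⟨b1, b2, b3⟩ := hbd z hz
      constructor
      · change ‖T⁻¹ • z.1‖ ≤ _
        rw [hnT, div_le_iff₀ hT0]
        refine b1.trans ?_
        rw [sq, mul_assoc]; gcongr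
      · change |(z.2 - t₀) / T| ≤ _
        rw [abs_div, abs_of_pos hT0, div_le_iff₀ hT0, abs_of_nonneg (by linarith)]
        nlinarith [mul_pos hT0 hT0])
    hY
    (by
      calc (A.card : ℝ) * T ^ (d + 1) * T = A.card * T ^ (d + 1 + 1) := by ring
        _ ≤ B * X.card * μ * Q ^ d := hA
        _ ≤ Λ * X.card * m * Q ^ d := by gcongr; exact Nat.le_ceil μ
        _ = _ := by ring) hQ
  set ρ := Λ ^ iE d k ^ (k + 1) with hρ
  have hρ0 : 0 < ρ := by positivity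
  refine ⟨w, t₀ + c * T, hw, ?_, p.2, (hIm p (hI' hp)).2.1, ?_⟩
  · have h1 := hcnt trivial
    rw [div_le_iff₀ hρ0] at h1
    calc (T ^ 2) ^ (d + 1) = T ^ (d + 1) * T ^ (d + 1) := by ring
      _ ≤ _ := h1
      _ ≤ _ := by
        rw [mul_comm]
        refine mul_le_mul_of_nonneg_left (Nat.cast_le.2 (card_le_card fun z hz => ?_)) hρ0.le
        rw [mem_filter] at hz ⊢
        refine ⟨hz.1, ?_⟩
        replace hz := hz.2
        change |(z.2 - t₀) / T - ⟪w, T⁻¹ • z.1⟫ - c| ≤ _ at hz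
        have e : z.2 - ⟪w, z.1⟫ - (t₀ + c * T) = ((z.2 - t₀) / T - ⟪w, T⁻¹ • z.1⟫ - c) * T := by
          rw [real_inner_smul_right]; field_simp; ring
        rw [e, abs_mul, abs_of_pos hT0]
        gcongr
        simpa using hz
  · have h1 := (hpl p hp).2
    change |1 - ⟪w, (-2 : ℝ) • ζ p.2⟫| ≤ _ at h1
    rw [real_inner_smul_right] at h1
    simpa using h1

end Crest.Agent.N76.Pk
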