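import Crest.Agent.N76.Pk.Basic

/-! # Row 76, PLANK lemma (helper95): point-line configurations, iterated bushes. -/

set_option autoImplicit false

open Finset
open scoped RealInnerProductSpace

namespace Crest.Agent.N76.Pk

open Crest.Agent.N76.Red (V)

/-- points `(x, t)` with heights `H`; lines `τ ↦ y + τ v` with heights `τ ↦ b + s τ` -/
structure Dat (d : ℕ) (α ι : Type*) where
  x : α → V (d + 1)
  t : α → ℝ
  H : α → ℝ
  y : ι → V (d + 1)
  v : ι → V (d + 1)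
  b : ι → ℝ
  s : ι → ℝ

variable {d : ℕ} {α ι : Type*} [DecidableEq α] [DecidableEq ι]

/-- upper bounds (inherited by subsets of `J`) -/
structure Bas (D : Dat d α ι) (Y : Finset α) (J : Finset (α × ι)) (S T N P Λ : ℝ) : Prop where
  hΛ : 5 * ((d : ℝ) + 2) ≤ Λ
  hN : 0 < N
  hS : 2 ≤ S
  hT : 0 < T
  hP : 0 < P
  mult : Spr Y D.x 1 (Λ * P)
  mem : ∀ p ∈ J, p.1 ∈ Y
  vel : ∀ p ∈ J, ‖D.v p.2‖ ≤ Λ ∧ |D.s p.2| ≤ Λ * S / T
  inc : ∀ p ∈ J, ‖D.x p.1 - (D.y p.2 + D.t p.1 • D.v p.2)‖ ≤ Λ ∧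
    |D.H p.1 - (D.b p.2 + D.s p.2 * D.t p.1)| ≤ Λ
  cap : ∀ a, Spr (J.filter fun p => p.1 = a) (fun p => D.v p.2) (1 / S) (Λ * N / S ^ d)

/-- lower bounds: degrees and local fullness of the lines -/
structure Full (D : Dat d α ι) (J : Finset (α × ι)) (S N P Λ : ℝ) (m : ℕ) : Prop where
  deg : ∀ p ∈ J, N / Λ ≤ ((J.filter fun q => q.1 = p.1).card : ℝ)
  loc : ∀ p ∈ J, ∀ j ≤ m, P * S ^ j / Λ ≤
    ((J.filter fun q => q.2 = p.2 ∧ |D.t q.1 - D.t p.1| ≤ S ^ j).card : ℝ)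

variable {D : Dat d α ι} {Y : Finset α} {J : Finset (α × ι)} {S T N P Λ : ℝ}

lemma Bas.ten (h : Bas D Y J S T N P Λ) : 10 ≤ Λ := by
  linarith [h.hΛ, Nat.cast_nonneg (α := ℝ) d]

lemma Bas.mono (h : Bas D Y J S T N P Λ) {J' : Finset (α × ι)} {Λ' : ℝ} (hJ : J' ⊆ J)
    (hΛ : Λ ≤ Λ') : Bas D Y J' S T N P Λ' := by
  have := h.hS
  have := h.hT
  have := h.hN
  have := h.hP
  exact ⟨h.hΛ.trans hΛ, h.hN, h.hS, h.hT, h.hP, h.mult.mono subset_rfl (by gcongr), fun p hp => h.mem p (hJ hp),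
    fun p hp => ⟨(h.vel p (hJ hp)).1.trans hΛ, (h.vel p (hJ hp)).2.trans (by gcongr)⟩,
    fun p hp => ⟨(h.inc p (hJ hp)).1.trans hΛ, (h.inc p (hJ hp)).2.trans hΛ⟩,
    fun a => (h.cap a).mono (filter_subset_filter _ hJ) (by gcongr)⟩

/-- two points on a line -/
lemma Bas.two (h : Bas D Y J S T N P Λ) {a a' : α} {l : ι} (ha : (a, l) ∈ J) (ha' : (a', l) ∈ J) :
    ‖D.x a' - D.x a - (D.t a' - D.t a) • D.v l‖ ≤ 2 * Λ ∧
      |D.H a' - D.H a - (D.t a' - D.t a) * D.s l| ≤ 2 * Λ := by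
  obtain ⟨h1, h2⟩ := h.inc _ ha
  obtain ⟨h3, h4⟩ := h.inc _ ha'
  constructor
  · have : D.x a' - D.x a - (D.t a' - D.t a) • D.v l =
        (D.x a' - (D.y l + D.t a' • D.v l)) - (D.x a - (D.y l + D.t a • D.v l)) := by
      rw [sub_smul]; abel
    rw [this]
    exact (norm_sub_le _ _).trans (by linarith)
  · have : D.H a' - D.H a - (D.t a' - D.t a) * D.s l =
        (D.H a' - (D.b l + D.s l * D.t a')) - (D.H a - (D.b l + D.s l * D.t a)) := by ring
    rw [this]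
    exact (abs_sub _ _).trans (by linarith)

lemma Bas.two' (h : Bas D Y J S T N P Λ) {a a' : α} {l : ι} (ha : (a, l) ∈ J) (ha' : (a', l) ∈ J)
    {r : ℝ} (hr : |D.t a' - D.t a| ≤ r) :
    ‖D.x a' - D.x a‖ ≤ Λ * r + 2 * Λ ∧ |D.H a' - D.H a| ≤ Λ * S / T * r + 2 * Λ := by
  obtain ⟨h1, h2⟩ := h.two ha ha'
  obtain ⟨h3, h4⟩ := h.vel _ ha
  have h0 : 0 ≤ r := (abs_nonneg _).trans hr
  constructor
  · have a1 : ‖(D.t a' - D.t a) • D.v l‖ ≤ r * Λ := by
      rw [norm_smul, Real.norm_eq_abs]; exact mul_le_mul hr h3 (norm_nonneg _) h0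
    have := norm_add_le (D.x a' - D.x a - (D.t a' - D.t a) • D.v l) ((D.t a' - D.t a) • D.v l)
    rw [sub_add_cancel] at this
    linarith
  · have a1 : |(D.t a' - D.t a) * D.s l| ≤ r * (Λ * S / T) := by
      rw [abs_mul]; exact mul_le_mul hr h4 (abs_nonneg _) h0
    have := abs_add_le (D.H a' - D.H a - (D.t a' - D.t a) * D.s l) ((D.t a' - D.t a) * D.s l)
    rw [sub_add_cancel] at this
    linarith

/-- points of a line in a time interval -/
lemma Bas.line_card (h : Bas D Y J S T N P Λ) (l : ι) (τ : ℝ) {r : ℝ} (hr : 1 ≤ r)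
    (G : Finset (α × ι)) (hG : G ⊆ J) (hl : ∀ q ∈ G, q.2 = l ∧ |D.t q.1 - τ| ≤ r) :
    (G.card : ℝ) ≤ Λ ^ (3 * d + 5) * P * r := by
  have h10 := h.ten
  have hP := h.hP
  have := card_le_fib G (fun q => ⌊D.t q.1 - τ⌋) (Icc (-⌈r⌉) ⌈r⌉)
    (fun q hq => floor_mem (hl q hq).2) (K := Λ ^ (3 * d + 4) * P) (fun c _ => by
      rcases (G.filter fun q => ⌊D.t q.1 - τ⌋ = c).eq_empty_or_nonempty with he | ⟨q₀, hq₀⟩
      · rw [he]; simp only [card_empty, Nat.cast_zero]; positivity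
      set F := G.filter fun q => ⌊D.t q.1 - τ⌋ = c with hF
      have hin : ∀ q ∈ F, (q.1, l) ∈ J := fun q hq => by
        have h1 := (mem_filter.1 hq).1
        rw [← (hl q h1).1]; exact hG h1
      have e : (F.image Prod.fst).card = F.card := card_image_of_injOn fun q hq q' hq' e =>
        Prod.ext e ((hl q (mem_filter.1 hq).1).1.trans (hl q' (mem_filter.1 hq').1).1.symm)
      rw [← e]
      have := h.mult.ball one_pos (u := 3 * Λ) (by linarith) (D.x q₀.1) (F.image Prod.fst)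
        (fun a ha => by
          obtain ⟨q, hq, rfl⟩ := mem_image.1 ha
          exact h.mem (q.1, l) (hin q hq)) (fun a ha => by
          obtain ⟨q, hq, rfl⟩ := mem_image.1 ha
          have h1 := Int.abs_sub_lt_one_of_floor_eq_floor
            ((mem_filter.1 hq).2.trans (mem_filter.1 hq₀).2.symm)
          rw [sub_sub_sub_cancel_right] at h1
          have := (h.two' (hin _ hq₀) (hin _ hq) h1.le).1
          linarith)
      refine this.trans ?_
      push_cast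
      calc Λ * P * (5 * ((d : ℝ) + 1 + 1) * (3 * Λ)) ^ (d + 1)
          ≤ Λ * P * (Λ * (Λ * Λ)) ^ (d + 1) := by
            gcongr <;> linarith [h.hΛ]
        _ = _ := by ring)
  refine this.trans ?_
  calc ((Icc (-⌈r⌉) ⌈r⌉).card : ℝ) * (Λ ^ (3 * d + 4) * P)
      ≤ 5 * r * (Λ ^ (3 * d + 4) * P) := by
        gcongr; exact card_Icc_le hr
    _ ≤ Λ * r * (Λ ^ (3 * d + 4) * P) := by gcongr; linarith
    _ = _ := by ring

/-- many points of a line are far in time from a given one -/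
lemma Bas.far (h : Bas D Y J S T N P Λ) {p : α × ι} {r : ℝ} (hr : Λ ^ (3 * d + 7) ≤ r)
    (G : Finset (α × ι)) (hG : G ⊆ J) (hl : ∀ q ∈ G, q.2 = p.2) (hc : P * r / Λ ≤ G.card) :
    P * r / (2 * Λ) ≤
      ((G.filter fun q => r / Λ ^ (3 * d + 7) ≤ |D.t q.1 - D.t p.1|).card : ℝ) := by
  have h10 := h.ten
  have hΛ0 : 0 < Λ := by linarith
  have h1 := h.line_card p.2 (D.t p.1) (r := r / Λ ^ (3 * d + 7))
    ((one_le_div (by positivity)).2 hr)
    (G.filter fun q => ¬ r / Λ ^ (3 * d + 7) ≤ |D.t q.1 - D.t p.1|)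
    ((filter_subset _ _).trans hG)
    (fun q hq => ⟨hl q (mem_filter.1 hq).1, (not_le.1 (mem_filter.1 hq).2).le⟩)
  have h2 : ((G.filter fun q => r / Λ ^ (3 * d + 7) ≤ |D.t q.1 - D.t p.1|).card : ℝ) +
      (G.filter fun q => ¬ r / Λ ^ (3 * d + 7) ≤ |D.t q.1 - D.t p.1|).card = G.card := by
    exact_mod_cast card_filter_add_card_filter_not _
  have hr0 : 0 < r := lt_of_lt_of_le (by positivity) hr
  have hP := h.hP
  have h3 : Λ ^ (3 * d + 5) * P * (r / Λ ^ (3 * d + 7)) = P * r / (Λ * Λ) := by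
    field_simp; ring
  have h4 : P * r / (Λ * Λ) ≤ P * r / (2 * Λ) := by gcongr; linarith
  have h5 : P * r / Λ = 2 * (P * r / (2 * Λ)) := by field_simp
  linarith

/-- exponent of the multiplicity bound -/
def mE (d : ℕ) : ℕ := (3 * d + 11) * (d + 1) + 3 * d + 7

/-- few lines through `a` pass near a far point -/
lemma Bas.mu (h : Bas D Y J S T N P Λ) (a a' : α) {r : ℝ} (hr : 1 ≤ r)
    (W : Finset ((α × ι) × (α × ι))) (hW : ∀ w ∈ W, w.1 ∈ J ∧ w.2 ∈ J ∧ w.2.1 = a ∧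
      w.1.2 = w.2.2 ∧ |D.t w.1.1 - D.t a'| ≤ 2 * r ∧ ‖D.x w.1.1 - D.x a'‖ ≤ 4 * Λ * r ∧
      r * S / Λ ^ (3 * d + 7) ≤ |D.t w.1.1 - D.t a|) :
    (W.card : ℝ) ≤ Λ ^ mE d * P * r * N / S ^ d := by
  have h10 := h.ten
  have hP := h.hP
  have hΛ0 : 0 < Λ := by linarith
  have hΛ1 : 1 ≤ Λ := by linarith
  have hS := h.hS
  have hS0 : 0 < S := by linarith
  have hN := h.hN
  rcases W.eq_empty_or_nonempty with he | ⟨w₀, hw₀⟩
  · rw [he]; simp only [card_empty, Nat.cast_zero]; positivity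
  have hin : ∀ w ∈ W, (a, w.2.2) ∈ J ∧ (w.1.1, w.2.2) ∈ J := fun w hw => by
    obtain ⟨h1, h2, h3, h4, -⟩ := hW w hw
    exact ⟨by rw [← h3]; exact h2, by rw [← h4]; exact h1⟩
  have h1 : ((W.image Prod.snd).card : ℝ) ≤ Λ * N / S ^ d * (Λ ^ (3 * d + 11)) ^ (d + 1) := by
    have := (h.cap a).ball (by positivity) (u := Λ ^ (3 * d + 10)) (one_le_pow₀ hΛ1)
      (D.v w₀.2.2) (W.image Prod.snd) (fun q hq => by
        obtain ⟨w, hw, rfl⟩ := mem_image.1 hq
        exact mem_filter.2 ⟨(hW w hw).2.1, (hW w hw).2.2.1⟩) (fun q hq => by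
        obtain ⟨w, hw, rfl⟩ := mem_image.1 hq
        obtain ⟨-, -, -, -, b1, b2, b3⟩ := hW w hw
        obtain ⟨-, c0, -, -, c1, c2, -⟩ := hW w₀ hw₀
        have e1 := (h.two (hin w hw).1 (hin w hw).2).1
        have e0 := (h.two (hin w₀ hw₀).1 (hin w₀ hw₀).2).1
        have hv := (h.vel _ c0).1
        have id1 : (D.t w.1.1 - D.t a) • (D.v w.2.2 - D.v w₀.2.2) =
            ((D.x w.1.1 - D.x a') - (D.x w₀.1.1 - D.x a'))
            - (D.x w.1.1 - D.x a - (D.t w.1.1 - D.t a) • D.v w.2.2)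
            + (D.x w₀.1.1 - D.x a - (D.t w₀.1.1 - D.t a) • D.v w₀.2.2)
            - ((D.t w.1.1 - D.t a') - (D.t w₀.1.1 - D.t a')) • D.v w₀.2.2 := by
          simp only [smul_sub, sub_smul]; abel
        have n1 : ‖((D.t w.1.1 - D.t a') - (D.t w₀.1.1 - D.t a')) • D.v w₀.2.2‖ ≤ 4 * r * Λ := by
          rw [norm_smul, Real.norm_eq_abs]
          exact mul_le_mul ((abs_sub _ _).trans (by linarith)) hv (norm_nonneg _) (by linarith)
        have n2 : |D.t w.1.1 - D.t a| * ‖D.v w.2.2 - D.v w₀.2.2‖ ≤ 16 * Λ * r := by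
          rw [← Real.norm_eq_abs, ← norm_smul, id1]
          refine (norm_sub_le _ _).trans ?_
          have := (norm_add_le _ _).trans (add_le_add ((norm_sub_le _ _).trans
            (add_le_add ((norm_sub_le _ _).trans (add_le_add b2 c2)) e1)) e0)
          nlinarith
        have n3 : r * S / Λ ^ (3 * d + 7) * ‖D.v w.2.2 - D.v w₀.2.2‖ ≤ Λ * Λ * Λ * r := by
          refine (mul_le_mul_of_nonneg_right b3 (norm_nonneg _)).trans (n2.trans ?_)
          gcongr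
          nlinarith
        rw [mul_one_div, le_div_iff₀ hS0]
        rw [div_mul_eq_mul_div, div_le_iff₀ (by positivity)] at n3
        have hr0 : 0 < r := by linarith
        have : r * (‖D.v w.2.2 - D.v w₀.2.2‖ * S) ≤ r * Λ ^ (3 * d + 10) := by
          calc _ = r * S * ‖D.v w.2.2 - D.v w₀.2.2‖ := by ring
            _ ≤ _ := n3
            _ = _ := by ring
        exact le_of_mul_le_mul_left this hr0)
    refine this.trans ?_
    push_cast
    gcongr Λ * N / S ^ d * ?_ ^ _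
    calc 5 * ((d : ℝ) + 1 + 1) * Λ ^ (3 * d + 10) ≤ Λ * Λ ^ (3 * d + 10) := by
          gcongr; linarith [h.hΛ]
      _ = _ := by ring
  have h2 := card_le_fib W Prod.snd (W.image Prod.snd) (fun w hw => mem_image_of_mem _ hw)
    (K := Λ ^ (3 * d + 5) * P * (2 * r)) (fun q _ => by
      have e : ((W.filter fun w => w.2 = q).image Prod.fst).card =
          (W.filter fun w => w.2 = q).card := card_image_of_injOn fun w hw w' hw' e =>
        Prod.ext e ((mem_filter.1 hw).2.trans (mem_filter.1 hw').2.symm)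
      rw [← e]
      refine h.line_card q.2 (D.t a') (by linarith) _ (fun p hp => ?_) (fun p hp => ?_)
      · obtain ⟨w, hw, rfl⟩ := mem_image.1 hp
        exact (hW w (mem_filter.1 hw).1).1
      · obtain ⟨w, hw, rfl⟩ := mem_image.1 hp
        obtain ⟨-, -, -, b0, b1, -⟩ := hW w (mem_filter.1 hw).1
        exact ⟨by rw [b0, (mem_filter.1 hw).2], b1⟩)
  refine h2.trans ?_
  calc ((W.image Prod.snd).card : ℝ) * (Λ ^ (3 * d + 5) * P * (2 * r))
      ≤ Λ * N / S ^ d * (Λ ^ (3 * d + 11)) ^ (d + 1) * (Λ ^ (3 * d + 5) * P * (Λ * r)) := by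
        gcongr; linarith
    _ = _ := by rw [mE]; field_simp; ring

open Classical in
/-- points reached from `B` by a line segment of length about `S ^ (j+1)` -/
noncomputable def reach (D : Dat d α ι) (J : Finset (α × ι)) (S Λ : ℝ) (j : ℕ) (B : Finset α) :
    Finset α :=
  (J.image Prod.fst).filter fun a => ∃ a₁ ∈ B, ∃ l, (a₁, l) ∈ J ∧ (a, l) ∈ J ∧
    S ^ (j + 1) / Λ ^ (3 * d + 7) ≤ |D.t a - D.t a₁| ∧ |D.t a - D.t a₁| ≤ S ^ (j + 1)

lemma Bas.reach_card (h : Bas D Y J S T N P Λ) {m : ℕ} (hF : Full D J S N P Λ m)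
    (hS : Λ ^ (3 * d + 7) ≤ S) {j : ℕ} (hj : j + 1 ≤ m) (a' : α) (B : Finset α)
    (hB : B ⊆ J.image Prod.fst)
    (hb : ∀ a ∈ B, |D.t a - D.t a'| ≤ 2 * S ^ j ∧ ‖D.x a - D.x a'‖ ≤ 4 * Λ * S ^ j) :
    B.card * S ^ (d + 1) / Λ ^ (mE d + 3) ≤ ((reach D J S Λ j B).card : ℝ) := by
  classical
  have h10 := h.ten
  have hΛ0 : 0 < Λ := by linarith
  have hS2 := h.hS
  have hS1 : 1 ≤ S := by linarith
  have hS0 : 0 < S := by linarith
  have hN := h.hN
  have hP := h.hP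
  have hSj : 1 ≤ S ^ j := one_le_pow₀ hS1
  set W := (J ×ˢ J).filter fun w => w.1.1 ∈ B ∧ w.2.2 = w.1.2 ∧
    |D.t w.2.1 - D.t w.1.1| ≤ S ^ (j + 1) ∧
    S ^ (j + 1) / Λ ^ (3 * d + 7) ≤ |D.t w.2.1 - D.t w.1.1| with hW
  set J₁ := J.filter fun p => p.1 ∈ B with hJ₁
  have h1 : B.card * (N / Λ) ≤ (J₁.card : ℝ) := by
    refine le_card_fib J₁ Prod.fst B fun a ha => ?_
    obtain ⟨p, hp, rfl⟩ := mem_image.1 (hB ha)
    refine (hF.deg p hp).trans (Nat.cast_le.2 (card_le_card fun q hq => ?_))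
    simp only [hJ₁, mem_filter] at hq ⊢
    exact ⟨⟨hq.1, hq.2 ▸ ha⟩, hq.2⟩
  have h2 : J₁.card * (P * S ^ (j + 1) / (2 * Λ)) ≤ (W.card : ℝ) := by
    refine le_card_fib W Prod.fst J₁ fun p hp => ?_
    rw [hJ₁, mem_filter] at hp
    have := h.far (p := p) (r := S ^ (j + 1)) (hS.trans (le_self_pow₀ hS1 (by omega))) _
      (filter_subset _ _) (fun q hq => (mem_filter.1 hq).2.1) (hF.loc p hp.1 (j + 1) hj)
    refine this.trans (Nat.cast_le.2 (card_le_card_of_injOn (fun q => (p, q)) (fun q hq => ?_) ?_))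
    · simp only [coe_filter, Set.mem_ofPred_eq, hW, mem_filter, mem_product] at hq ⊢
      exact ⟨⟨⟨hp.1, hq.1.1⟩, hp.2, hq.1.2.1, hq.1.2.2, hq.2⟩, trivial⟩
    · intro q _ q' _ e; exact (Prod.ext_iff.1 e).2
  have h3 : (W.card : ℝ) ≤ (reach D J S Λ j B).card * (Λ ^ mE d * P * S ^ j * N / S ^ d) := by
    refine card_le_fib W (fun w => w.2.1) _ (fun w hw => ?_) fun a _ => ?_
    · simp only [hW, mem_filter, mem_product] at hw
      obtain ⟨⟨w1, w2⟩, w3, w4, w5, w6⟩ := hw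
      exact mem_filter.2 ⟨mem_image_of_mem _ w2, w.1.1, w3, w.1.2, w1, by rw [← w4]; exact w2,
        w6, w5⟩
    · refine h.mu a a' hSj _ fun w hw => ?_
      simp only [hW, mem_filter, mem_product] at hw
      obtain ⟨⟨⟨w1, w2⟩, w3, w4, w5, w6⟩, w7⟩ := hw
      refine ⟨w1, w2, w7, w4.symm, (hb _ w3).1, (hb _ w3).2, ?_⟩
      rw [← pow_succ, abs_sub_comm, ← w7]; exact w6
  have h4 : B.card * (N / Λ) * (P * S ^ (j + 1) / (Λ * Λ)) ≤
      (reach D J S Λ j B).card * (Λ ^ mE d * P * S ^ j * N / S ^ d) := by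
    calc _ ≤ J₁.card * (P * S ^ (j + 1) / (2 * Λ)) := by gcongr; linarith
      _ ≤ _ := h2.trans h3
  rw [div_le_iff₀ (by positivity)]
  have e1 : B.card * S ^ (d + 1) = B.card * (N / Λ) * (P * S ^ (j + 1) / (Λ * Λ)) *
      (Λ ^ 3 * S ^ d / (P * S ^ j * N)) := by field_simp; ring
  have e2 : Λ ^ (mE d + 3) =
      Λ ^ mE d * P * S ^ j * N / S ^ d * (Λ ^ 3 * S ^ d / (P * S ^ j * N)) := by
    field_simp; ring
  rw [e1, e2, ← mul_assoc]
  gcongr

/-- anisotropic box around `a'` -/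
noncomputable def box (D : Dat d α ι) (J : Finset (α × ι)) (S T Λ : ℝ) (j : ℕ) (a' : α) :
    Finset α :=
  (J.image Prod.fst).filter fun a => |D.t a - D.t a'| ≤ 2 * S ^ j ∧
    ‖D.x a - D.x a'‖ ≤ 4 * Λ * S ^ j ∧
    |D.H a - D.H a'| ≤ 2 * (Λ * S / T) * S ^ j + 2 * (j + 1) * Λ

/-- **heavy boxes** -/
lemma Bas.heavy (h : Bas D Y J S T N P Λ) {m : ℕ} (hF : Full D J S N P Λ m)
    (hS : Λ ^ (3 * d + 7) ≤ S) {a' : α} (ha' : a' ∈ J.image Prod.fst) :
    ∀ j ≤ m, P * (S ^ j) ^ (d + 1) / Λ ^ ((mE d + 3) * j + 1) ≤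
      ((box D J S T Λ j a').card : ℝ) := by
  classical
  have h10 := h.ten
  have hΛ0 : 0 < Λ := by linarith
  have hS2 := h.hS
  have hS0 : 0 < S := by linarith
  have hT := h.hT
  intro j
  induction j with
  | zero =>
    intro _
    obtain ⟨p, hp, rfl⟩ := mem_image.1 ha'
    have h1 := hF.loc p hp 0 (Nat.zero_le _)
    simp only [pow_zero, mul_one, one_pow, mul_zero, zero_add, pow_one] at h1 ⊢
    refine h1.trans (Nat.cast_le.2 (card_le_card_of_injOn Prod.fst (fun q hq => ?_) ?_))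
    · simp only [coe_filter, Set.mem_ofPred_eq] at hq
      obtain ⟨q1, q2, q3⟩ := hq
      obtain ⟨e1, e2⟩ := h.two' (a := p.1) (a' := q.1) (l := p.2) hp (by rw [← q2]; exact q1) q3
      have : 0 ≤ Λ * S / T := by positivity
      refine mem_coe.2 (mem_filter.2 ⟨mem_image_of_mem _ q1, ?_, ?_, ?_⟩)
      all_goals simp only [pow_zero, Nat.cast_zero]; linarith
    · intro q hq q' hq' e
      simp only [coe_filter, Set.mem_ofPred_eq] at hq hq'
      exact Prod.ext e (hq.2.1.trans hq'.2.1.symm)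
  | succ j ih =>
    intro hj
    have h1 := h.reach_card hF hS hj a' (box D J S T Λ j a') (filter_subset _ _)
      (fun a ha => ⟨(mem_filter.1 ha).2.1, (mem_filter.1 ha).2.2.1⟩)
    have h2 : reach D J S Λ j (box D J S T Λ j a') ⊆ box D J S T Λ (j + 1) a' := by
      intro a ha
      obtain ⟨b0, a₁, b1, l, b2, b3, -, b5⟩ := mem_filter.1 ha
      obtain ⟨-, c1, c2, c3⟩ := mem_filter.1 b1
      obtain ⟨e1, e2⟩ := h.two' b2 b3 b5
      have hp : 2 * S ^ j ≤ S ^ (j + 1) := by rw [pow_succ]; nlinarith [pow_pos hS0 j]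
      have hp1 : 1 ≤ S ^ j := one_le_pow₀ (by linarith)
      refine mem_filter.2 ⟨b0, ?_, ?_, ?_⟩
      · exact (abs_sub_le _ (D.t a₁) _).trans (by linarith)
      · refine (norm_sub_le_norm_sub_add_norm_sub _ (D.x a₁) _).trans ?_
        nlinarith
      · refine (abs_sub_le _ (D.H a₁) _).trans ?_
        push_cast
        have : 0 ≤ Λ * S / T := by positivity
        nlinarith
    refine le_trans ?_ (h1.trans (Nat.cast_le.2 (card_le_card h2)))
    calc P * (S ^ (j + 1)) ^ (d + 1) / Λ ^ ((mE d + 3) * (j + 1) + 1)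
        = P * (S ^ j) ^ (d + 1) / Λ ^ ((mE d + 3) * j + 1) * S ^ (d + 1) / Λ ^ (mE d + 3) := by
          field_simp; ring
      _ ≤ _ := by gcongr; exact ih (by omega)

end Crest.Agent.N76.Pk
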