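import Crest.Agent.N76.Pk.Basic

/-! # Row 76, PLANK lemma (helper95): the cone construction.
A finite set of points `(X a, H a)` which is a dense graph over `V (d+1)` and in which every point is
seen from many apexes along rich rays has a dense part on the graph of one affine function. -/

set_option autoImplicit false

open Finset
open scoped RealInnerProductSpace

namespace Crest.Agent.N76.Pk

open Crest.Agent.N76.Red (V)

variable {d : ℕ} {α : Type*}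

/-- `a''` lies on the ray from the apex `a` through `a'` -/
def Col (X : α → V (d + 1)) (H : α → ℝ) (Λ : ℝ) (a a' a'' : α) : Prop :=
  ∃ μ : ℝ, 1 / Λ ≤ |μ| ∧ |μ| ≤ Λ ∧ ‖X a'' - X a - μ • (X a' - X a)‖ ≤ Λ ∧
    |H a'' - H a - μ * (H a' - H a)| ≤ Λ

open Classical in
/-- hypotheses of the cone lemma -/
structure ConeHyp (Z : Finset α) (X : α → V (d + 1)) (H : α → ℝ) (P S Λ : ℝ) : Prop where
  hP : 0 < P
  hΛ : 5 * ((d : ℝ) + 2) ≤ Λ
  hS : Λ ^ (3 * d + 4) ≤ S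
  bd : ∀ a ∈ Z, ‖X a‖ ≤ Λ * S ∧ |H a| ≤ Λ * S
  mult : Spr Z X 1 (Λ * P)
  pop : ∀ a' ∈ Z, P * S ^ (d + 1) / Λ ≤
    ((Z.filter fun a => P * S / Λ ≤ ((Z.filter fun a'' => Col X H Λ a a' a'').card : ℝ)).card : ℝ)

/-- a dense part near a `k`-dimensional affine graph -/
def Inv (Z : Finset α) (X : α → V (d + 1)) (H : α → ℝ) (P S Λ : ℝ) (k : ℕ) (ρ : ℝ) : Prop :=
  ∃ (U : Submodule ℝ (V (d + 1))) (x₀ w : V (d + 1)) (c : ℝ) (E : Finset α),
    Module.finrank ℝ U ≤ k ∧ ‖x₀‖ ≤ Λ * S ∧ ‖w‖ ≤ ρ ∧ |c| ≤ Λ * S ∧ E ⊆ Z ∧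
    P * S ^ k / ρ ≤ E.card ∧
    ∀ a ∈ E, (∃ u ∈ U, ‖X a - x₀ - u‖ ≤ ρ) ∧ |H a - ⟪w, X a - x₀⟫ - c| ≤ ρ

lemma exists_normal (U : Submodule ℝ (V (d + 1))) (hU : Module.finrank ℝ U ≤ d) :
    ∃ ν : V (d + 1), ‖ν‖ = 1 ∧ ∀ u ∈ U, ⟪ν, u⟫ = 0 := by
  have h1 := U.finrank_add_finrank_orthogonal
  have h2 : Module.finrank ℝ (V (d + 1)) = d + 1 := by simp
  have h3 : Uᗮ ≠ ⊥ := by
    intro h
    rw [h, finrank_bot] at h1
    omega
  obtain ⟨v, hv, hv0⟩ := Submodule.exists_mem_ne_zero_of_ne_bot h3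
  refine ⟨‖v‖⁻¹ • v, norm_smul_inv_norm hv0, fun u hu => ?_⟩
  rw [real_inner_smul_left, Submodule.inner_left_of_mem_orthogonal hu hv, mul_zero]

lemma inner_near {ν x u : V (d + 1)} {ρ : ℝ} (hν : ‖ν‖ = 1) (hu : ⟪ν, u⟫ = 0)
    (h : ‖x - u‖ ≤ ρ) : |⟪ν, x⟫| ≤ ρ := by
  have : ⟪ν, x⟫ = ⟪ν, x - u⟫ := by rw [inner_sub_right, hu, sub_zero]
  rw [this]
  refine (abs_real_inner_le_norm _ _).trans ?_
  rw [hν, one_mul]; exact h

/-- two points near the hyperplane on the same ray are close -/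
lemma ray_close {ν p x₁ x₂ x : V (d + 1)} {Λ ρ θ A μ₁ μ₂ : ℝ} (hν : ‖ν‖ = 1) (hθ : 0 < θ)
    (hΛ : 0 < Λ) (hp : θ ≤ |⟪ν, p⟫|) (h₁ : |⟪ν, x₁⟫| ≤ ρ) (h₂ : |⟪ν, x₂⟫| ≤ ρ)
    (hA : ‖x₂ - p‖ ≤ A) (m₁ : 1 / Λ ≤ |μ₁|) (m₁' : |μ₁| ≤ Λ) (m₂ : |μ₂| ≤ Λ)
    (e₁ : ‖x - p - μ₁ • (x₁ - p)‖ ≤ Λ) (e₂ : ‖x - p - μ₂ • (x₂ - p)‖ ≤ Λ) :
    ‖x₁ - x₂‖ ≤ Λ * ((2 * Λ * ρ + 2 * Λ) / θ * A + 2 * Λ) := by
  set e := (x - p - μ₂ • (x₂ - p)) - (x - p - μ₁ • (x₁ - p)) with he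
  have hen : ‖e‖ ≤ 2 * Λ := (norm_sub_le _ _).trans (by linarith)
  have hie : |⟪ν, e⟫| ≤ 2 * Λ := by
    refine (abs_real_inner_le_norm _ _).trans ?_
    rw [hν, one_mul]; exact hen
  have hi : (μ₂ - μ₁) * ⟪ν, p⟫ = ⟪ν, e⟫ - μ₁ * ⟪ν, x₁⟫ + μ₂ * ⟪ν, x₂⟫ := by
    simp only [he, inner_sub_right, real_inner_smul_right]; ring
  have hρ : 0 ≤ ρ := (abs_nonneg _).trans h₁
  have hμ : |μ₂ - μ₁| ≤ (2 * Λ * ρ + 2 * Λ) / θ := by
    rw [le_div_iff₀ hθ]
    have a1 : |μ₁ * ⟪ν, x₁⟫| ≤ Λ * ρ := by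
      rw [abs_mul]; exact mul_le_mul m₁' h₁ (abs_nonneg _) hΛ.le
    have a2 : |μ₂ * ⟪ν, x₂⟫| ≤ Λ * ρ := by
      rw [abs_mul]; exact mul_le_mul m₂ h₂ (abs_nonneg _) hΛ.le
    calc |μ₂ - μ₁| * θ ≤ |μ₂ - μ₁| * |⟪ν, p⟫| := mul_le_mul_of_nonneg_left hp (abs_nonneg _)
      _ = |⟪ν, e⟫ - μ₁ * ⟪ν, x₁⟫ + μ₂ * ⟪ν, x₂⟫| := by rw [← abs_mul, hi]
      _ ≤ |⟪ν, e⟫| + |μ₁ * ⟪ν, x₁⟫| + |μ₂ * ⟪ν, x₂⟫| :=
          (abs_add_le _ _).trans (add_le_add (abs_sub _ _) le_rfl)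
      _ ≤ _ := by linarith
  have hv : μ₁ • (x₁ - x₂) = e + (μ₂ - μ₁) • (x₂ - p) := by
    simp only [he, smul_sub, sub_smul]; abel
  have hn : |μ₁| * ‖x₁ - x₂‖ ≤ (2 * Λ * ρ + 2 * Λ) / θ * A + 2 * Λ := by
    calc |μ₁| * ‖x₁ - x₂‖ = ‖e + (μ₂ - μ₁) • (x₂ - p)‖ := by
          rw [← hv, norm_smul, Real.norm_eq_abs]
      _ ≤ ‖e‖ + |μ₂ - μ₁| * ‖x₂ - p‖ := by
          refine (norm_add_le _ _).trans ?_
          rw [norm_smul, Real.norm_eq_abs]
      _ ≤ 2 * Λ + (2 * Λ * ρ + 2 * Λ) / θ * A := by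
          gcongr
      _ = _ := by ring
  have : 1 / Λ * ‖x₁ - x₂‖ ≤ |μ₁| * ‖x₁ - x₂‖ := mul_le_mul_of_nonneg_right m₁ (norm_nonneg _)
  rw [one_div, inv_mul_eq_div, div_le_iff₀ hΛ] at this
  nlinarith [norm_nonneg (x₁ - x₂)]

open Classical in
/-- choice of the apex -/
lemma ConeHyp.apex {Z : Finset α} {X : α → V (d + 1)} {H : α → ℝ} {P S Λ : ℝ}
    (h : ConeHyp Z X H P S Λ) {ν x₀ : V (d + 1)} (hν : ‖ν‖ = 1) (hx₀ : ‖x₀‖ ≤ Λ * S)
    {E : Finset α} (hE : E ⊆ Z) (hne : E.Nonempty) :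
    ∃ a ∈ Z, S / Λ ^ (3 * d + 4) ≤ |⟪ν, X a - x₀⟫| ∧ (E.card : ℝ) / Λ ^ (2 * d + 5) ≤
      ((E.filter fun a' => P * S / Λ ≤
        ((Z.filter fun a'' => Col X H Λ a a' a'').card : ℝ)).card : ℝ) := by
  have hd : (0 : ℝ) ≤ d := Nat.cast_nonneg d
  have hΛ := h.hΛ
  have h10 : 10 ≤ Λ := by linarith
  have hΛ0 : 0 < Λ := by linarith
  have hΛ1 : 1 ≤ Λ := by linarith
  have hP := h.hP
  have hS1 : 1 ≤ S := (one_le_pow₀ hΛ1).trans h.hS
  set θ := S / Λ ^ (3 * d + 4) with hθ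
  have hθ1 : 1 ≤ θ := (one_le_div (by positivity)).2 h.hS
  set sees : α → α → Prop := fun a a' =>
    P * S / Λ ≤ ((Z.filter fun a'' => Col X H Λ a a' a'').card : ℝ) with hsees
  set Z' := Z.filter fun a => θ ≤ |⟪ν, X a - x₀⟫| with hZ'
  have hbad : ((Z.filter fun a => ¬ θ ≤ |⟪ν, X a - x₀⟫|).card : ℝ) ≤
      P * S ^ (d + 1) / (2 * Λ) := by
    have := h.mult.slab one_pos (u := 2 * Λ * S) (w := θ) (by nlinarith) hθ1 ν x₀ hν
      (Z.filter fun a => ¬ θ ≤ |⟪ν, X a - x₀⟫|) (filter_subset _ _) (fun a ha => by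
        rw [mem_filter] at ha
        refine ⟨(norm_sub_le _ _).trans (by linarith [(h.bd a ha.1).1]), ?_⟩
        rw [mul_one]; exact (not_le.1 ha.2).le)
    refine this.trans ?_
    calc Λ * P * (5 * ((d : ℝ) + 2)) ^ (d + 1) * θ * (2 * Λ * S) ^ d
        ≤ Λ * P * Λ ^ (d + 1) * θ * (Λ * Λ * S) ^ d := by gcongr; linarith
      _ = P * S ^ (d + 1) / (Λ * Λ) := by
          rw [hθ]; field_simp; ring
      _ ≤ _ := by gcongr; linarith
  have hZ : (Z'.card : ℝ) ≤ P * S ^ (d + 1) * Λ ^ (2 * d + 3) := by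
    have := h.mult.ball one_pos (u := Λ * S) (by nlinarith) 0 Z' (filter_subset _ _)
      (fun a ha => by simpa using (h.bd a (mem_filter.1 ha).1).1)
    refine this.trans ?_
    push_cast
    calc Λ * P * (5 * ((d : ℝ) + 1 + 1) * (Λ * S)) ^ (d + 1)
        ≤ Λ * P * (Λ * (Λ * S)) ^ (d + 1) := by gcongr; linarith
      _ = _ := by ring
  set W := (Z' ×ˢ E).filter fun q => sees q.1 q.2 with hW
  have hlow : E.card * (P * S ^ (d + 1) / (2 * Λ)) ≤ (W.card : ℝ) := by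
    refine le_card_fib W Prod.snd E fun a' ha' => ?_
    have h1 := h.pop a' (hE ha')
    have h2 : ((Z.filter fun a => sees a a').card : ℝ) ≤
        ((Z'.filter fun a => sees a a').card : ℝ) +
          ((Z.filter fun a => ¬ θ ≤ |⟪ν, X a - x₀⟫|).card : ℝ) := by
      rw [← Nat.cast_add]
      refine Nat.cast_le.2 ((card_le_card fun a ha => ?_).trans (card_union_le _ _))
      simp only [hZ', mem_filter, mem_union] at ha ⊢
      tauto
    have h3 : (Z'.filter fun a => sees a a').card ≤ (W.filter fun q => q.2 = a').card := by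
      refine card_le_card_of_injOn (fun a => (a, a')) (fun a ha => ?_) ?_
      · simp only [coe_filter, Set.mem_ofPred_eq, hW, mem_filter, mem_product] at ha ⊢
        exact ⟨⟨⟨ha.1, ha'⟩, ha.2⟩, trivial⟩
      · intro a _ b _ e; exact (Prod.ext_iff.1 e).1
    have h4 : ((Z'.filter fun a => sees a a').card : ℝ) ≤ (W.filter fun q => q.2 = a').card := by
      exact_mod_cast h3
    have h5 : P * S ^ (d + 1) / Λ = 2 * (P * S ^ (d + 1) / (2 * Λ)) := by field_simp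
    change P * S ^ (d + 1) / Λ ≤ ((Z.filter fun a => sees a a').card : ℝ) at h1
    linarith
  by_contra hcon
  push Not at hcon
  have hEpos : (0 : ℝ) < E.card := by exact_mod_cast hne.card_pos
  have hup : (W.card : ℝ) ≤ Z'.card * ((E.card : ℝ) / Λ ^ (2 * d + 5)) := by
    refine card_le_fib W Prod.fst Z' (fun q hq => (mem_product.1 (mem_filter.1 hq).1).1)
      fun a ha => ?_
    rw [hZ', mem_filter] at ha
    refine le_trans ?_ (hcon a ha.1 ha.2).le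
    refine Nat.cast_le.2 (card_le_card_of_injOn Prod.snd (fun q hq => ?_) ?_)
    · simp only [coe_filter, Set.mem_ofPred_eq, hW, mem_filter, mem_product] at hq ⊢
      obtain ⟨⟨⟨_, b⟩, c⟩, rfl⟩ := hq
      exact ⟨b, c⟩
    · intro q hq q' hq' e
      simp only [coe_filter, Set.mem_ofPred_eq] at hq hq'
      exact Prod.ext (hq.2.trans hq'.2.symm) e
  have h6 : (Z'.card : ℝ) * ((E.card : ℝ) / Λ ^ (2 * d + 5)) ≤
      E.card * (P * S ^ (d + 1) / (Λ * Λ)) := by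
    calc (Z'.card : ℝ) * ((E.card : ℝ) / Λ ^ (2 * d + 5))
        ≤ P * S ^ (d + 1) * Λ ^ (2 * d + 3) * ((E.card : ℝ) / Λ ^ (2 * d + 5)) := by gcongr
      _ = _ := by field_simp; ring
  have h7 : E.card * (P * S ^ (d + 1) / (Λ * Λ)) < E.card * (P * S ^ (d + 1) / (2 * Λ)) := by
    gcongr; linarith
  linarith

/-- the exponent of one cone step -/
def cE (d : ℕ) : ℕ := (3 * d + 10) * (d + 1) + 2 * d + 8

lemma ConeHyp.step {Z : Finset α} {X : α → V (d + 1)} {H : α → ℝ} {P S Λ : ℝ}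
    (h : ConeHyp Z X H P S Λ) {k : ℕ} (hk : k ≤ d) {ρ : ℝ} (hρ : Λ ≤ ρ)
    (hI : Inv Z X H P S Λ k ρ) : Inv Z X H P S Λ (k + 1) (ρ ^ cE d) := by
  classical
  obtain ⟨U, x₀, w, c, E, hU, hx₀, hw, hc, hE, hcard, hnear⟩ := hI
  have hd : (0 : ℝ) ≤ d := Nat.cast_nonneg d
  have hΛ := h.hΛ
  have h10 : 10 ≤ Λ := by linarith
  have hΛ0 : 0 < Λ := by linarith
  have hΛ1 : 1 ≤ Λ := by linarith
  have hρ10 : 10 ≤ ρ := by linarith
  have hρ0 : 0 < ρ := by linarith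
  have hρ1 : 1 ≤ ρ := by linarith
  have hP := h.hP
  have hS1 : 1 ≤ S := (one_le_pow₀ hΛ1).trans h.hS
  have hS0 : 0 < S := by linarith
  have hne : E.Nonempty := by
    rw [← card_pos, ← Nat.cast_pos (α := ℝ)]
    exact lt_of_lt_of_le (by positivity) hcard
  obtain ⟨ν, hν, hνU⟩ := exists_normal U (hU.trans hk)
  obtain ⟨a, ha, hD, hEa⟩ := h.apex hν hx₀ hE hne
  set θ := S / Λ ^ (3 * d + 4) with hθ
  have hθ0 : 0 < θ := by positivity
  set Q := ρ ^ (3 * d + 4) with hQ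
  have hQ1 : 1 ≤ Q := one_le_pow₀ hρ1
  have hSθ : S / θ ≤ Q := by
    rw [hθ, div_div_cancel₀ hS0.ne']
    exact pow_le_pow_left₀ hΛ0.le hρ _
  set Ea := E.filter fun a' => P * S / Λ ≤ ((Z.filter fun a'' => Col X H Λ a a' a'').card : ℝ)
    with hEa'
  set D := ⟪ν, X a - x₀⟫ with hDdef
  have hD0 : D ≠ 0 := by
    intro e; rw [e, abs_zero] at hD; linarith
  set g := H a - ⟪w, X a - x₀⟫ - c with hg
  have hXa : ‖X a - x₀‖ ≤ 2 * Λ * S := (norm_sub_le _ _).trans (by linarith [(h.bd a ha).1])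
  have hgb : |g| ≤ ρ ^ 3 * S := by
    have a1 : |⟪w, X a - x₀⟫| ≤ ρ * (2 * Λ * S) :=
      (abs_real_inner_le_norm _ _).trans (mul_le_mul hw hXa (norm_nonneg _) hρ0.le)
    have a2 := (h.bd a ha).2
    have a3 : |g| ≤ |H a| + |⟪w, X a - x₀⟫| + |c| :=
      (abs_sub _ _).trans (add_le_add (abs_sub _ _) le_rfl)
    have a4 : Λ * S ≤ ρ * S := by gcongr
    have a5 : ρ * (2 * Λ * S) ≤ 2 * ρ ^ 2 * S := by nlinarith
    have a6 : 2 * (ρ * S) + 2 * ρ ^ 2 * S ≤ ρ ^ 3 * S := by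
      have : 2 * ρ + 2 * ρ ^ 2 ≤ ρ ^ 3 := by nlinarith
      nlinarith
    linarith
  have hq : |g / D| ≤ ρ ^ 3 * Q := by
    rw [abs_div, div_le_iff₀ (abs_pos.2 hD0)]
    calc |g| ≤ ρ ^ 3 * S := hgb
      _ = ρ ^ 3 * (S / θ) * θ := by field_simp
      _ ≤ ρ ^ 3 * Q * |D| := by gcongr
  have hρQ : ρ ≤ ρ ^ 3 * Q :=
    (le_self_pow₀ hρ1 (by norm_num)).trans (le_mul_of_one_le_right (by positivity) hQ1)
  set w' := w + (g / D) • ν with hw'
  have hw'n : ‖w'‖ ≤ ρ ^ 4 * Q := by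
    refine (norm_add_le _ _).trans ?_
    rw [norm_smul, hν, mul_one, Real.norm_eq_abs]
    have : ρ ^ 4 * Q = ρ * (ρ ^ 3 * Q) := by ring
    nlinarith
  have hbig : ρ ^ 6 * Q ≤ ρ ^ cE d := by
    rw [hQ, ← pow_add]
    exact pow_le_pow_right₀ hρ1 (by unfold cE; nlinarith)
  have hνE : ∀ a' ∈ E, |⟪ν, X a' - x₀⟫| ≤ ρ := fun a' ha' => by
    obtain ⟨u, hu, hu'⟩ := (hnear a' ha').1
    exact inner_near hν (hνU u hu) hu'
  set E' := Z.filter fun a'' => ∃ a' ∈ Ea, Col X H Λ a a' a'' with hE'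
  refine ⟨U ⊔ Submodule.span ℝ {X a - x₀}, x₀, w', c, E', ?_, hx₀, ?_, hc, filter_subset _ _,
    ?_, ?_⟩
  · refine (Submodule.finrank_add_le_finrank_add_finrank _ _).trans (add_le_add hU ?_)
    simpa using finrank_span_le_card ({X a - x₀} : Set (V (d + 1)))
  · refine hw'n.trans (le_trans ?_ hbig)
    gcongr
    norm_num
  · -- counting
    set W := (Ea ×ˢ Z).filter fun q => Col X H Λ a q.1 q.2 with hW
    have hlow : Ea.card * (P * S / Λ) ≤ (W.card : ℝ) := by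
      refine le_card_fib W Prod.fst Ea fun a' ha' => ?_
      refine (mem_filter.1 ha').2.trans (Nat.cast_le.2 ?_)
      refine card_le_card_of_injOn (fun b => (a', b)) (fun b hb => ?_) ?_
      · simp only [coe_filter, Set.mem_ofPred_eq, hW, mem_filter, mem_product] at hb ⊢
        exact ⟨⟨⟨ha', hb.1⟩, hb.2⟩, trivial⟩
      · intro b _ b' _ e; exact (Prod.ext_iff.1 e).2
    have hup : (W.card : ℝ) ≤ E'.card * (Λ * P * (ρ ^ 6 * Q) ^ (d + 1)) := by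
      refine card_le_fib W Prod.snd E' (fun q hq => ?_) fun a'' _ => ?_
      · simp only [hW, hE', mem_filter, mem_product] at hq ⊢
        exact ⟨hq.1.2, q.1, hq.1.1, hq.2⟩
      · set G := Ea.filter fun a' => Col X H Λ a a' a'' with hG
        have h1 : (W.filter fun q => q.2 = a'').card ≤ G.card := by
          refine card_le_card_of_injOn Prod.fst (fun q hq => ?_) ?_
          · simp only [coe_filter, Set.mem_ofPred_eq, hW, hG, mem_filter, mem_product] at hq ⊢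
            obtain ⟨⟨⟨b, _⟩, c⟩, rfl⟩ := hq
            exact ⟨b, c⟩
          · intro q hq q' hq' e
            simp only [coe_filter, Set.mem_ofPred_eq] at hq hq'
            exact Prod.ext e (hq.2.trans hq'.2.symm)
        refine (Nat.cast_le.2 h1).trans ?_
        rcases G.eq_empty_or_nonempty with he | ⟨a₂, ha₂⟩
        · rw [he]; simp only [card_empty, Nat.cast_zero]; positivity
        have hGE : ∀ b ∈ G, b ∈ E := fun b hb => (mem_filter.1 (mem_filter.1 hb).1).1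
        have := h.mult.ball one_pos (u := ρ ^ 5 * Q) (by nlinarith [one_le_pow₀ (n := 5) hρ1])
          (X a₂) G (fun b hb => hE (hGE b hb)) (fun a₁ ha₁ => by
            obtain ⟨μ₁, m1, m1', e1, _⟩ := (mem_filter.1 ha₁).2
            obtain ⟨μ₂, _, m2', e2, _⟩ := (mem_filter.1 ha₂).2
            have hA : ‖(X a₂ - x₀) - (X a - x₀)‖ ≤ 2 * Λ * S := by
              rw [sub_sub_sub_cancel_right]
              exact (norm_sub_le _ _).trans
                (by linarith [(h.bd a ha).1, (h.bd a₂ (hE (hGE _ ha₂))).1])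
            have := ray_close (x := X a'' - x₀) hν hθ0 hΛ0 hD (hνE _ (hGE _ ha₁))
              (hνE _ (hGE _ ha₂)) hA m1 m1' m2'
              (by simpa only [sub_sub_sub_cancel_right] using e1)
              (by simpa only [sub_sub_sub_cancel_right] using e2)
            rw [sub_sub_sub_cancel_right] at this
            refine this.trans ?_
            have b1 : (2 * Λ * ρ + 2 * Λ) / θ * (2 * Λ * S) =
                (2 * Λ * ρ + 2 * Λ) * (2 * Λ) * (S / θ) := by field_simp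
            have b2 : (2 * Λ * ρ + 2 * Λ) * (2 * Λ) * (S / θ) ≤
                (2 * ρ * ρ + 2 * ρ * ρ) * (2 * ρ) * Q := by
              gcongr
              nlinarith
            have b3 : 2 * Λ ≤ 2 * ρ ^ 3 * Q := by linarith
            rw [b1, mul_one]
            calc Λ * ((2 * Λ * ρ + 2 * Λ) * (2 * Λ) * (S / θ) + 2 * Λ)
                ≤ ρ * ((2 * ρ * ρ + 2 * ρ * ρ) * (2 * ρ) * Q + 2 * ρ ^ 3 * Q) := by gcongr
              _ = 10 * (ρ ^ 4 * Q) := by ring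
              _ ≤ ρ * (ρ ^ 4 * Q) := by gcongr
              _ = _ := by ring)
        refine this.trans ?_
        push_cast
        gcongr Λ * P * ?_ ^ _
        calc 5 * ((d : ℝ) + 1 + 1) * (ρ ^ 5 * Q) ≤ ρ * (ρ ^ 5 * Q) := by gcongr; linarith
          _ = _ := by ring
    have h2 : P * S ^ k / ρ / ρ ^ (2 * d + 5) ≤ (Ea.card : ℝ) :=
      le_trans (by gcongr) hEa
    rw [div_le_iff₀ (by positivity)]
    have h3 : P * S ^ k / ρ / ρ ^ (2 * d + 5) * (P * S / ρ) ≤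
        E'.card * (ρ * P * (ρ ^ 6 * Q) ^ (d + 1)) := by
      calc _ ≤ Ea.card * (P * S / Λ) := by gcongr
        _ ≤ _ := hlow.trans hup
        _ ≤ _ := by gcongr
    have h4 : P * S ^ (k + 1) = P * S ^ k / ρ / ρ ^ (2 * d + 5) * (P * S / ρ) *
        (ρ ^ (2 * d + 7) / P) := by field_simp; ring
    have h5 : ρ * P * (ρ ^ 6 * Q) ^ (d + 1) * (ρ ^ (2 * d + 7) / P) = ρ ^ cE d := by
      rw [hQ, cE]; field_simp; ring
    rw [h4, ← h5, ← mul_assoc]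
    gcongr
  · intro a'' ha''
    obtain ⟨a', ha', μ, -, m', e1, e2⟩ := (mem_filter.1 ha'').2
    have ha'E : a' ∈ E := (mem_filter.1 ha').1
    obtain ⟨⟨u, hu, hu'⟩, hH⟩ := hnear a' ha'E
    set e := X a'' - X a - μ • (X a' - X a) with he
    constructor
    · refine ⟨μ • u + (1 - μ) • (X a - x₀), Submodule.add_mem_sup (U.smul_mem _ hu)
        (Submodule.smul_mem _ _ (Submodule.mem_span_singleton_self _)), ?_⟩
      have : X a'' - x₀ - (μ • u + (1 - μ) • (X a - x₀)) = e + μ • (X a' - x₀ - u) := by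
        simp only [he, smul_sub, sub_smul, one_smul]; abel
      rw [this]
      refine (norm_add_le _ _).trans (le_trans ?_ hbig)
      rw [norm_smul, Real.norm_eq_abs]
      have : |μ| * ‖X a' - x₀ - u‖ ≤ ρ * ρ := mul_le_mul (m'.trans hρ) hu' (norm_nonneg _) hρ0.le
      have b1 : ρ ^ 6 ≤ ρ ^ 6 * Q := le_mul_of_one_le_right (by positivity) hQ1
      have b2 : ρ ^ 3 ≤ ρ ^ 6 := pow_le_pow_right₀ hρ1 (by norm_num)
      nlinarith
    · have id1 : H a'' - ⟪w', X a'' - x₀⟫ - c =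
          (H a'' - H a - μ * (H a' - H a)) - ⟪w', e⟫ +
            μ * ((H a' - ⟪w, X a' - x₀⟫ - c) - g / D * ⟪ν, X a' - x₀⟫) := by
        have t1 : X a'' - x₀ = e + μ • (X a' - x₀) + (1 - μ) • (X a - x₀) := by
          simp only [he, smul_sub, sub_smul, one_smul]; abel
        have t2 : ⟪w', X a - x₀⟫ = H a - c := by
          rw [hw', inner_add_left, real_inner_smul_left, ← hDdef, div_mul_cancel₀ _ hD0, hg]; ring
        have t3 : ⟪w', X a' - x₀⟫ = ⟪w, X a' - x₀⟫ + g / D * ⟪ν, X a' - x₀⟫ := by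
          rw [hw', inner_add_left, real_inner_smul_left]
        rw [t1, inner_add_right, inner_add_right, real_inner_smul_right, real_inner_smul_right,
          t2, t3]
        ring
      rw [id1]
      have c1 : |⟪w', e⟫| ≤ ρ ^ 4 * Q * ρ :=
        (abs_real_inner_le_norm _ _).trans
          (mul_le_mul hw'n (e1.trans hρ) (norm_nonneg _) (by positivity))
      have c2 : |g / D * ⟪ν, X a' - x₀⟫| ≤ ρ ^ 3 * Q * ρ := by
        rw [abs_mul]; exact mul_le_mul hq (hνE _ ha'E) (abs_nonneg _) (by positivity)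
      have c3 : |μ * ((H a' - ⟪w, X a' - x₀⟫ - c) - g / D * ⟪ν, X a' - x₀⟫)| ≤
          ρ * (ρ + ρ ^ 3 * Q * ρ) := by
        rw [abs_mul]
        exact mul_le_mul (m'.trans hρ) ((abs_sub _ _).trans (add_le_add hH c2)) (abs_nonneg _)
          hρ0.le
      have c4 : ρ ^ 5 ≤ ρ ^ 5 * Q := le_mul_of_one_le_right (by positivity) hQ1
      have c5 : ρ ^ 2 ≤ ρ ^ 5 := pow_le_pow_right₀ hρ1 (by norm_num)
      have c6 : ρ ≤ ρ ^ 2 := by nlinarith
      refine ((abs_add_le _ _).trans (add_le_add (abs_sub _ _) c3)).trans (le_trans ?_ hbig)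
      have c7 : ρ ^ 6 * Q = ρ * (ρ ^ 5 * Q) := by ring
      have c8 : 0 ≤ ρ ^ 5 * Q := by positivity
      nlinarith

/-- **Cone lemma.** -/
theorem ConeHyp.cone {Z : Finset α} {X : α → V (d + 1)} {H : α → ℝ} {P S Λ : ℝ}
    (h : ConeHyp Z X H P S Λ) {a₀ : α} (ha₀ : a₀ ∈ Z) (E₀ : Finset α) (hE₀ : E₀ ⊆ Z)
    (hc : P / Λ ≤ E₀.card) (hn : ∀ a ∈ E₀, ‖X a - X a₀‖ ≤ Λ ∧ |H a - H a₀| ≤ Λ) :
    ∃ (w : V (d + 1)) (c : ℝ) (E : Finset α), ‖w‖ ≤ Λ ^ cE d ^ (d + 1) ∧ E ⊆ Z ∧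
      P * S ^ (d + 1) / Λ ^ cE d ^ (d + 1) ≤ E.card ∧
      ∀ a ∈ E, |H a - ⟪w, X a⟫ - c| ≤ Λ ^ cE d ^ (d + 1) := by
  have hd : (0 : ℝ) ≤ d := Nat.cast_nonneg d
  have hΛ1 : 1 ≤ Λ := by linarith [h.hΛ]
  have key : ∀ k ≤ d + 1, Inv Z X H P S Λ k (Λ ^ cE d ^ k) := by
    intro k
    induction k with
    | zero =>
      intro _
      refine ⟨⊥, X a₀, 0, H a₀, E₀, by simp, (h.bd a₀ ha₀).1, by simp; linarith, (h.bd a₀ ha₀).2,
        hE₀, by simpa using hc, fun a ha => ⟨⟨0, Submodule.zero_mem _, ?_⟩, ?_⟩⟩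
      · simpa using (hn a ha).1
      · simpa using (hn a ha).2
    | succ k ih =>
      intro hk
      rw [pow_succ, pow_mul]
      refine h.step (by omega) ?_ (ih (by omega))
      exact le_self_pow₀ hΛ1 (pow_ne_zero _ (by unfold cE; omega))
  obtain ⟨U, x₀, w, c, E, -, -, hw, -, hE, hcard, hnear⟩ := key (d + 1) le_rfl
  refine ⟨w, c - ⟪w, x₀⟫, E, hw, hE, hcard, fun a ha => ?_⟩
  have := (hnear a ha).2
  rw [inner_sub_right] at this
  convert this using 2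
  ring

end Crest.Agent.N76.Pk
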