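import Crest.Agent.N76.Pk.Step

/-! # Row 76, PLANK lemma (helper95): the step lemma and its iteration. -/

set_option autoImplicit false

open Finset
open scoped RealInnerProductSpace

namespace Crest.Agent.N76.Pk

open Crest.Agent.N76.Red (V)

variable {d : ℕ} {α ι : Type*} [DecidableEq α] [DecidableEq ι]
variable {D : Dat d α ι} {Y : Finset α} {I J : Finset (α × ι)} {L : Finset ι} {S T N P Λ : ℝ}

lemma Bas.card_le (h : Bas D Y J S T N P Λ) (hT : 1 ≤ T) (hx : ∀ a ∈ Y, ‖D.x a‖ ≤ Λ * T) :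
    (Y.card : ℝ) ≤ Λ ^ (2 * d + 3) * (P * T ^ (d + 1)) := by
  have h10 := h.ten
  have hP := h.hP
  refine (h.mult.ball one_pos (u := Λ * T) (by nlinarith) 0 Y subset_rfl
    (fun a ha => by simpa using hx a ha)).trans ?_
  push_cast
  calc Λ * P * (5 * ((d : ℝ) + 1 + 1) * (Λ * T)) ^ (d + 1) ≤ Λ * P * (Λ * (Λ * T)) ^ (d + 1) := by
        gcongr; linarith [h.hΛ]
    _ = _ := by ring

/-- exponent of the last stage -/
def fE (d : ℕ) : ℕ := (2 * d + 8) * (3 * d + 7) + 3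

lemma Bas.final {ρ : ℝ} (h : Bas D Y J S T N P ρ) (hL : ∀ p ∈ J, p.2 ∈ L)
    (hx : ∀ a ∈ Y, ‖D.x a‖ ≤ ρ * T) (hLc : L.card * P * T ≤ ρ * Y.card * N)
    (hdeg : ∀ p ∈ J, N / ρ ≤ ((J.filter fun q => q.1 = p.1).card : ℝ))
    (E : Finset α) (hE : E ⊆ J.image Prod.fst) (hc : P * T ^ (d + 1) / ρ ≤ E.card)
    (w : V (d + 1)) (c : ℝ) (hw : ‖w‖ ≤ ρ) (hn : ∀ a ∈ E, |D.H a - ⟪w, D.x a⟫ - c| ≤ ρ)
    (hT : ρ ^ fE d ≤ T) :
    ∃ I' ⊆ J, P * T ^ (d + 1) * N / ρ ^ 3 ≤ I'.card ∧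
      ∀ p ∈ I', p.1 ∈ E ∧ |D.s p.2 - ⟪w, D.v p.2⟫| ≤ ρ ^ fE d / T := by
  have h10 := h.ten
  have hρ0 : 0 < ρ := by linarith
  have hρ1 : 1 ≤ ρ := by linarith
  have hP := h.hP
  have hN := h.hN
  have hT0 := h.hT
  have hT1 : 1 ≤ T := (one_le_pow₀ hρ1).trans hT
  set I₄ := J.filter fun p => p.1 ∈ E with hI₄
  have h1 : E.card * (N / ρ) ≤ (I₄.card : ℝ) := by
    refine le_card_fib I₄ Prod.fst E fun a ha => ?_
    obtain ⟨p, hp, rfl⟩ := mem_image.1 (hE ha)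
    refine (hdeg p hp).trans (Nat.cast_le.2 (card_le_card fun q hq => ?_))
    simp only [hI₄, mem_filter] at hq ⊢
    exact ⟨⟨hq.1, hq.2 ▸ ha⟩, hq.2⟩
  set ρ' := ρ ^ (2 * d + 8) with hρ'
  have hρρ : ρ ≤ ρ' := le_self_pow₀ hρ1 (by omega)
  obtain ⟨I', hI', hcard, hfib⟩ := core I₄ ({()} : Finset Unit) (fun _ p => p.2)
    (fun _ => P * T / ρ') (fun _ _ => by positivity)
  have hI'J : I' ⊆ J := hI'.trans (filter_subset _ _)
  refine ⟨I', hI'J, ?_, fun p hp => ⟨(mem_filter.1 (hI' hp)).2, ?_⟩⟩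
  · rw [sum_singleton] at hcard
    have h2 : ((I₄.image fun p => p.2).card : ℝ) ≤ L.card := by
      refine Nat.cast_le.2 (card_le_card fun l hl => ?_)
      obtain ⟨p, hp, rfl⟩ := mem_image.1 hl
      exact hL p (mem_filter.1 hp).1
    have h3 : P * T / ρ' * ((I₄.image fun p => p.2).card : ℝ) ≤ P * T ^ (d + 1) * N / ρ ^ 4 := by
      calc _ ≤ P * T / ρ' * L.card := by gcongr
        _ = L.card * P * T / ρ' := by ring
        _ ≤ ρ * Y.card * N / ρ' := by gcongr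
        _ ≤ ρ * (ρ ^ (2 * d + 3) * (P * T ^ (d + 1))) * N / ρ' := by
            gcongr; exact h.card_le hT1 hx
        _ = _ := by rw [hρ']; field_simp; ring
    have h4 : P * T ^ (d + 1) * N / ρ ^ 2 ≤ (I₄.card : ℝ) := by
      calc _ = P * T ^ (d + 1) / ρ * (N / ρ) := by field_simp
        _ ≤ E.card * (N / ρ) := by gcongr
        _ ≤ _ := h1
    have h5 : P * T ^ (d + 1) * N / ρ ^ 3 + P * T ^ (d + 1) * N / ρ ^ 4 ≤
        P * T ^ (d + 1) * N / ρ ^ 2 := by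
      have : P * T ^ (d + 1) * N / ρ ^ 3 + P * T ^ (d + 1) * N / ρ ^ 4 =
        P * T ^ (d + 1) * N / ρ ^ 2 * ((ρ + 1) / ρ ^ 2) := by field_simp
      rw [this]
      refine mul_le_of_le_one_right (by positivity) ?_
      rw [div_le_one (by positivity)]; nlinarith
    linarith
  · have hb := h.mono subset_rfl hρρ
    have hf1 : ρ' ^ (3 * d + 7) * ρ ^ 3 = ρ ^ fE d := by rw [hρ', fE]; ring
    have hQ1 : 1 ≤ ρ' ^ (3 * d + 7) := one_le_pow₀ (hρ1.trans hρρ)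
    have hf2 : ρ' ^ (3 * d + 7) ≤ T :=
      le_trans (by rw [← hf1]; exact le_mul_of_one_le_right (by linarith) (one_le_pow₀ hρ1)) hT
    have h2 := hb.far (p := p) hf2 (I'.filter fun q => q.2 = p.2)
      ((filter_subset _ _).trans hI'J) (fun q hq => (mem_filter.1 hq).2)
      (hfib () (by simp) p hp)
    have h3 : (0 : ℝ) < ((I'.filter fun q => q.2 = p.2).filter
        fun q => T / ρ' ^ (3 * d + 7) ≤ |D.t q.1 - D.t p.1|).card :=
      lt_of_lt_of_le (by positivity) h2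
    obtain ⟨q, hq⟩ := card_pos.1 (Nat.cast_pos.1 h3)
    simp only [mem_filter] at hq
    obtain ⟨⟨q1, q2⟩, q3⟩ := hq
    obtain ⟨e1, e2⟩ := h.two (a := p.1) (a' := q.1) (l := p.2) (hI'J hp)
      (by rw [← q2]; exact hI'J q1)
    have n1 := hn _ (mem_filter.1 (hI' hp)).2
    have n2 := hn _ (mem_filter.1 (hI' q1)).2
    have id1 : (D.t q.1 - D.t p.1) * (D.s p.2 - ⟪w, D.v p.2⟫) =
        (D.H q.1 - ⟪w, D.x q.1⟫ - c) - (D.H p.1 - ⟪w, D.x p.1⟫ - c)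
          - (D.H q.1 - D.H p.1 - (D.t q.1 - D.t p.1) * D.s p.2)
          + ⟪w, D.x q.1 - D.x p.1 - (D.t q.1 - D.t p.1) • D.v p.2⟫ := by
      simp only [inner_sub_right, real_inner_smul_right]; ring
    have n3 : |⟪w, D.x q.1 - D.x p.1 - (D.t q.1 - D.t p.1) • D.v p.2⟫| ≤ ρ * (2 * ρ) :=
      (abs_real_inner_le_norm _ _).trans (mul_le_mul hw e1 (norm_nonneg _) hρ0.le)
    have n4 : |D.t q.1 - D.t p.1| * |D.s p.2 - ⟪w, D.v p.2⟫| ≤ ρ ^ 3 := by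
      rw [← abs_mul, id1]
      refine ((abs_add_le _ _).trans (add_le_add ((abs_sub _ _).trans
        (add_le_add ((abs_sub _ _).trans (add_le_add n2 n1)) e2)) n3)).trans ?_
      have t1 : 10 * ρ ≤ ρ * ρ := by nlinarith
      have t2 : 10 * (ρ * ρ) ≤ ρ * (ρ * ρ) := by gcongr
      have t3 : ρ ^ 3 = ρ * (ρ * ρ) := by ring
      linarith
    have n5 := (mul_le_mul_of_nonneg_right q3 (abs_nonneg _)).trans n4
    rw [div_mul_eq_mul_div, div_le_iff₀ (by linarith)] at n5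
    rw [le_div_iff₀ hT0, ← hf1]
    linarith

/-- exponent of one step -/
def sE (d k : ℕ) : ℕ := 5 * bE d k * cE d ^ (d + 1) * fE d

/-- **One step.** -/
theorem Bas.step (h : Bas D Y I S T N P Λ) {k : ℕ} (hT : T = S ^ (k + 1))
    (hk : (k : ℝ) + 3 ≤ Λ) (hS : Λ ^ sE d k ≤ S) (hI : I.Nonempty) (hL : ∀ p ∈ I, p.2 ∈ L)
    (hx : ∀ a ∈ Y, ‖D.x a‖ ≤ Λ * T ∧ |D.t a| ≤ Λ * T) (hH : ∀ p ∈ I, |D.H p.1| ≤ Λ * S)
    (hY : N * Y.card ≤ Λ * I.card) (hLc : L.card * P * T ≤ Λ * Y.card * N) :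
    ∃ (w : V (d + 1)) (c : ℝ), ∃ I' ⊆ I, ‖w‖ ≤ Λ ^ sE d k * S / T ∧
      P * T ^ (d + 1) * N / Λ ^ sE d k ≤ I'.card ∧
      P * T ^ (d + 1) / Λ ^ sE d k ≤
        ((Y.filter fun a => |D.H a - ⟪w, D.x a⟫ - c| ≤ Λ ^ sE d k).card : ℝ) ∧
      ∀ p ∈ I', |D.H p.1 - ⟪w, D.x p.1⟫ - c| ≤ Λ ^ sE d k ∧
        |D.s p.2 - ⟪w, D.v p.2⟫| ≤ Λ ^ sE d k / T := by
  have h10 := h.ten
  have hΛ0 : 0 < Λ := by linarith
  have hΛ1 : 1 ≤ Λ := by linarith
  have hS1 : 1 ≤ S := by linarith [h.hS]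
  have hS0 : 0 < S := by linarith
  have hP := h.hP
  have hN := h.hN
  have hT0 := h.hT
  have hr1 : 1 ≤ S ^ k := one_le_pow₀ hS1
  have hr0 : 0 < S ^ k := by linarith
  obtain ⟨J, hJ, hJc, hF⟩ := h.prune hT (by push_cast; linarith) hL (fun a ha => (hx a ha).2) hY hLc
  set Λ₁ := Λ ^ 5 with hΛ₁
  have l1 : Λ ≤ Λ₁ := le_self_pow₀ hΛ1 (by norm_num)
  set Λ₂ := Λ₁ ^ bE d k with hΛ₂
  have hb := bE_ge d k
  have l2 : Λ₁ ≤ Λ₂ := le_self_pow₀ (hΛ1.trans l1) (by omega)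
  set ρ := Λ₂ ^ cE d ^ (d + 1) with hρ
  have l3 : Λ₂ ≤ ρ := le_self_pow₀ (by linarith) (pow_ne_zero _ (by unfold cE; omega))
  have hρ1 : 1 ≤ ρ := by linarith
  have e4 : ρ ^ fE d = Λ ^ sE d k := by
    rw [hρ, hΛ₂, hΛ₁, sE, ← pow_mul, ← pow_mul, ← pow_mul]; congr 1; ring
  have l4 : ρ ≤ Λ ^ sE d k := e4 ▸ le_self_pow₀ hρ1 (by unfold fE; omega)
  have l5 : ρ ^ 3 ≤ Λ ^ sE d k := e4 ▸ pow_le_pow_right₀ hρ1 (by unfold fE; omega)
  have l6 : Λ₂ ^ (3 * d + 7) ≤ S := by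
    refine le_trans ?_ hS
    rw [← e4]
    exact (pow_le_pow_left₀ (by linarith) l3 _).trans
      (pow_le_pow_right₀ hρ1 (by unfold fE; nlinarith))
  have hB₁ := h.mono hJ l1
  have hk₁ : (k : ℝ) + 2 ≤ Λ₁ := by linarith
  have hC := coneHyp_of hB₁ hF hT hk₁ l6 (fun a ha => (hx a ha).1.trans (by gcongr))
    (fun p hp => (hH p (hJ hp)).trans (by gcongr))
  have hJne : J.Nonempty := by
    rw [← card_pos, ← Nat.cast_pos (α := ℝ)]
    have : (0 : ℝ) < I.card := Nat.cast_pos.2 hI.card_pos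
    linarith
  obtain ⟨p₀, hp₀⟩ := hJne
  have ha₀ : p₀.1 ∈ J.image Prod.fst := mem_image_of_mem _ hp₀
  obtain ⟨w₀, c, E, hw₀, hE, hEc, hEn⟩ := hC.cone ha₀ (box D J S T Λ₁ k p₀.1) (filter_subset _ _)
    (le_trans (by gcongr; linarith; omega) (hB₁.heavy hF
      ((pow_le_pow_left₀ (by linarith) l2 _).trans l6) ha₀ k (by omega)))
    (fun a ha => by
      obtain ⟨-, b1, b2⟩ := box_near hB₁ hT hk₁ ha
      have t3 : Λ₁ ^ 3 ≤ Λ₂ := pow_le_pow_right₀ (by linarith) (by omega)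
      refine ⟨?_, b2.trans t3⟩
      rw [← smul_sub, norm_smul, norm_inv, Real.norm_eq_abs, abs_of_pos hr0, inv_mul_le_iff₀ hr0]
      refine b1.trans ?_
      have : 4 * Λ₁ ≤ Λ₁ ^ 3 := by
        have : 100 ≤ Λ₁ ^ 2 := by nlinarith
        nlinarith
      nlinarith)
  set w := (S ^ k)⁻¹ • w₀ with hw
  have hwn : ‖w‖ ≤ ρ / S ^ k := by
    rw [hw, norm_smul, norm_inv, Real.norm_eq_abs, abs_of_pos hr0, inv_mul_eq_div]
    gcongr
  have hEn' : ∀ a ∈ E, |D.H a - ⟪w, D.x a⟫ - c| ≤ ρ := fun a ha => by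
    have := hEn a ha
    rwa [real_inner_smul_right, ← real_inner_smul_left] at this
  have hEc' : P * T ^ (d + 1) / ρ ≤ E.card := by
    refine le_trans (le_of_eq ?_) hEc
    rw [hT]; ring
  have lρ : Λ ≤ ρ := by linarith
  obtain ⟨I', hI', hc', hp'⟩ := (h.mono hJ lρ).final (fun p hp => hL p (hJ hp))
    (fun a ha => (hx a ha).1.trans (by gcongr)) (hLc.trans (by gcongr))
    (fun p hp => le_trans (by gcongr; linarith) (hF.deg p hp)) E hE hEc' w c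
    (hwn.trans (div_le_self (by linarith) hr1)) hEn'
    (by rw [e4, hT]; exact hS.trans (le_self_pow₀ hS1 (by omega)))
  refine ⟨w, c, I', hI'.trans hJ, ?_, le_trans (by gcongr) hc', ?_, fun p hp =>
    ⟨(hEn' _ (hp' p hp).1).trans l4, e4 ▸ (hp' p hp).2⟩⟩
  · refine hwn.trans ?_
    have : Λ ^ sE d k * S / T = Λ ^ sE d k / S ^ k := by rw [hT]; field_simp; ring
    rw [this]; gcongr
  · refine le_trans (le_trans (by gcongr) hEc') (Nat.cast_le.2 (card_le_card fun a ha => ?_))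
    obtain ⟨p, hp, rfl⟩ := mem_image.1 (hE ha)
    exact mem_filter.2 ⟨h.mem p (hJ hp), (hEn' _ ha).trans l4⟩

/-- heights relative to the affine function `⟪w, x⟫ + c`, in units `η` -/
noncomputable def Dat.shear (D : Dat d α ι) (w : V (d + 1)) (c η : ℝ) : Dat d α ι :=
  { D with
    H := fun a => (D.t a - ⟪w, D.x a⟫ - c) / η
    b := fun l => (-⟪w, D.y l⟫ - c) / η
    s := fun l => (1 - ⟪w, D.v l⟫) / η }

/-- state of the iteration: slab of thickness `ρ S^i` -/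
def St (D : Dat d α ι) (Y : Finset α) (I : Finset (α × ι)) (S T N P : ℝ) (i : ℕ) (ρ : ℝ)
    (q : Prop) : Prop :=
  ∃ (w : V (d + 1)) (c : ℝ), ∃ I' ⊆ I, ‖w‖ ≤ ρ ∧ I'.Nonempty ∧ N * Y.card ≤ ρ * I'.card ∧
    (∀ p ∈ I', |D.t p.1 - ⟪w, D.x p.1⟫ - c| ≤ ρ * S ^ i ∧ |1 - ⟪w, D.v p.2⟫| ≤ ρ * S ^ i / T) ∧
    (q → P * T ^ (d + 1) / ρ ≤
      ((Y.filter fun a => |D.t a - ⟪w, D.x a⟫ - c| ≤ ρ * S ^ i).card : ℝ))

/-- exponent of one iteration -/
def iE (d k : ℕ) : ℕ := 2 * sE d k + 2 * d + 3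

lemma Bas.iter (h : Bas D Y I S T N P Λ) {k : ℕ} (hT : T = S ^ (k + 1))
    (hk : (k : ℝ) + 3 ≤ Λ) (hL : ∀ p ∈ I, p.2 ∈ L)
    (hx : ∀ a ∈ Y, ‖D.x a‖ ≤ Λ * T ∧ |D.t a| ≤ Λ * T) (hLc : L.card * P * T ≤ Λ * Y.card * N)
    {i : ℕ} (hi : i ≤ k) {ρ : ℝ} (hρ : Λ ≤ ρ) (hS : ρ ^ iE d k ≤ S) {q q' : Prop}
    (hs : St D Y I S T N P (i + 1) ρ q) : St D Y I S T N P i (ρ ^ iE d k) q' := by
  obtain ⟨w, c, I₁, hI₁, hw, hne, hY, hp, -⟩ := hs
  have h10 := h.ten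
  have hρ1 : 1 ≤ ρ := by linarith
  have hρ0 : 0 < ρ := by linarith
  have hS1 : 1 ≤ S := by linarith [h.hS]
  have hS0 : 0 < S := by linarith
  have hP := h.hP
  have hN := h.hN
  have hT0 := h.hT
  have hT1 : 1 ≤ T := hT ▸ one_le_pow₀ hS1
  set η := S ^ i with hη
  have hη1 : 1 ≤ η := one_le_pow₀ hS1
  have hη0 : 0 < η := by linarith
  have hηS : S ^ (i + 1) = η * S := pow_succ _ _
  have l1 : ρ ≤ ρ ^ 2 := by nlinarith
  have l0 : Λ ≤ ρ ^ 2 := hρ.trans l1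
  have hb := h.mono hI₁ l0
  have hB : Bas (D.shear w c η) Y I₁ S T N P (ρ ^ 2) := by
    refine ⟨hb.hΛ, hN, h.hS, hT0, hP, hb.mult, hb.mem, fun p hp' => ⟨(hb.vel p hp').1, ?_⟩,
      fun p hp' => ⟨(hb.inc p hp').1, ?_⟩, hb.cap⟩
    · change |(1 - ⟪w, D.v p.2⟫) / η| ≤ _
      rw [abs_div, abs_of_pos hη0, div_le_iff₀ hη0]
      refine (hp p hp').2.trans ?_
      rw [hηS]
      calc ρ * (η * S) / T ≤ ρ ^ 2 * (η * S) / T := by gcongr
        _ = _ := by ring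
    · change |(D.t p.1 - ⟪w, D.x p.1⟫ - c) / η - ((-⟪w, D.y p.2⟫ - c) / η +
        (1 - ⟪w, D.v p.2⟫) / η * D.t p.1)| ≤ _
      have e : (D.t p.1 - ⟪w, D.x p.1⟫ - c) / η - ((-⟪w, D.y p.2⟫ - c) / η +
          (1 - ⟪w, D.v p.2⟫) / η * D.t p.1) =
          -⟪w, D.x p.1 - (D.y p.2 + D.t p.1 • D.v p.2)⟫ / η := by
        simp only [inner_sub_right, inner_add_right, real_inner_smul_right]; field_simp; ring
      rw [e, abs_div, abs_of_pos hη0, abs_neg]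
      refine (div_le_self (abs_nonneg _) hη1).trans ((abs_real_inner_le_norm _ _).trans ?_)
      rw [sq]
      exact mul_le_mul hw ((h.inc p (hI₁ hp')).1.trans hρ) (norm_nonneg _) hρ0.le
  set σ := (ρ ^ 2) ^ sE d k with hσ
  have hσ1 : ρ ^ 2 ≤ σ := le_self_pow₀ (by linarith) (by
    unfold sE bE cE fE; positivity)
  have e1 : ρ ^ iE d k = σ * ρ ^ (2 * d + 3) := by rw [hσ, iE]; ring
  have l2 : ρ ≤ ρ ^ (2 * d + 3) := le_self_pow₀ hρ1 (by omega)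
  have l3 : σ ≤ ρ ^ iE d k := e1 ▸ le_mul_of_one_le_right (by linarith) (by linarith)
  obtain ⟨w', c', I₂, hI₂, hw', hc₂, hcY, hp₂⟩ := hB.step (L := L) hT (by linarith) (l3.trans hS)
    hne (fun p hp' => hL p (hI₁ hp'))
    (fun a ha => ⟨(hx a ha).1.trans (by gcongr), (hx a ha).2.trans (by gcongr)⟩)
    (fun p hp' => by
      change |(D.t p.1 - ⟪w, D.x p.1⟫ - c) / η| ≤ _
      rw [abs_div, abs_of_pos hη0, div_le_iff₀ hη0]
      refine (hp p hp').1.trans ?_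
      rw [hηS]
      calc ρ * (η * S) ≤ ρ ^ 2 * (η * S) := by gcongr
        _ = _ := by ring)
    (hY.trans (by gcongr)) (hLc.trans (by gcongr))
  have key : ∀ a, |(D.shear w c η).H a - ⟪w', (D.shear w c η).x a⟫ - c'| ≤ σ →
      |D.t a - ⟪w + η • w', D.x a⟫ - (c + η * c')| ≤ ρ ^ iE d k * η := by
    intro a ha
    change |(D.t a - ⟪w, D.x a⟫ - c) / η - ⟪w', D.x a⟫ - c'| ≤ σ at ha
    have e : D.t a - ⟪w + η • w', D.x a⟫ - (c + η * c') =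
        ((D.t a - ⟪w, D.x a⟫ - c) / η - ⟪w', D.x a⟫ - c') * η := by
      rw [inner_add_left, real_inner_smul_left]; field_simp; ring
    rw [e, abs_mul, abs_of_pos hη0]
    gcongr
    exact ha.trans l3
  have hI₂pos : (0 : ℝ) < I₂.card := lt_of_lt_of_le (by positivity) hc₂
  refine ⟨w + η • w', c + η * c', I₂, hI₂.trans hI₁, ?_, card_pos.1 (Nat.cast_pos.1 hI₂pos), ?_,
    fun p hp' => ⟨key _ (hp₂ p hp').1, ?_⟩, fun _ => ?_⟩
  · refine (norm_add_le _ _).trans ?_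
    rw [norm_smul, Real.norm_eq_abs, abs_of_pos hη0]
    have a1 : η * ‖w'‖ ≤ σ := by
      calc η * ‖w'‖ ≤ η * (σ * S / T) := by gcongr
        _ = σ * (η * S / T) := by ring
        _ ≤ σ := by
          refine mul_le_of_le_one_right (by linarith) ?_
          rw [div_le_one hT0, ← hηS, hT]
          exact pow_le_pow_right₀ hS1 (by omega)
    rw [e1]
    nlinarith
  · have a1 := (h.mono subset_rfl hρ).card_le hT1 (fun a ha => (hx a ha).1.trans (by gcongr))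
    rw [div_le_iff₀ (by linarith)] at hc₂
    calc N * Y.card ≤ N * (ρ ^ (2 * d + 3) * (P * T ^ (d + 1))) := by gcongr
      _ = ρ ^ (2 * d + 3) * (P * T ^ (d + 1) * N) := by ring
      _ ≤ ρ ^ (2 * d + 3) * (I₂.card * σ) := by gcongr
      _ = _ := by rw [e1]; ring
  · have a1 := (hp₂ p hp').2
    change |(1 - ⟪w, D.v p.2⟫) / η - ⟪w', D.v p.2⟫| ≤ σ / T at a1
    have e : 1 - ⟪w + η • w', D.v p.2⟫ = ((1 - ⟪w, D.v p.2⟫) / η - ⟪w', D.v p.2⟫) * η := by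
      rw [inner_add_left, real_inner_smul_left]; field_simp; ring
    rw [e, abs_mul, abs_of_pos hη0]
    calc _ ≤ σ / T * η := by gcongr
      _ ≤ ρ ^ iE d k / T * η := by gcongr
      _ = _ := by ring
  · refine le_trans (le_trans (by gcongr) hcY) (Nat.cast_le.2 (card_le_card fun a ha => ?_))
    exact mem_filter.2 ⟨(mem_filter.1 ha).1, key _ (mem_filter.1 ha).2⟩

/-- **Plank theorem**, abstract form (the heights `H, b, s` of `D` play no role). -/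
theorem Bas.plank (h : Bas D Y I S T N P Λ) {k : ℕ} (hT : T = S ^ (k + 1))
    (hk : (k : ℝ) + 3 ≤ Λ) (hI : I.Nonempty) (hL : ∀ p ∈ I, p.2 ∈ L)
    (hx : ∀ a ∈ Y, ‖D.x a‖ ≤ Λ * T ∧ |D.t a| ≤ Λ * T) (hY : N * Y.card ≤ Λ * I.card)
    (hLc : L.card * P * T ≤ Λ * Y.card * N) (hS : Λ ^ iE d k ^ (k + 1) ≤ S) :
    St D Y I S T N P 0 (Λ ^ iE d k ^ (k + 1)) True := by
  have h10 := h.ten
  have hΛ1 : 1 ≤ Λ := by linarith
  have hT0 := h.hT
  have hiE : 1 ≤ iE d k := by unfold iE; omega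
  have key : ∀ j i : ℕ, j + i = k + 1 → St D Y I S T N P i (Λ ^ iE d k ^ j) (0 < j) := by
    intro j
    induction j with
    | zero =>
      intro i hi
      have e : S ^ i = T := by rw [hT, ← hi, zero_add]
      refine ⟨0, 0, I, subset_rfl, by simp; linarith, hI, by simpa using hY, fun p hp => ?_,
        fun h => absurd h (lt_irrefl _)⟩
      simp only [inner_zero_left, sub_zero, pow_zero, pow_one, e, abs_one]
      exact ⟨(hx _ (h.mem p hp)).2, by rw [mul_div_assoc, div_self hT0.ne']; linarith⟩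
    | succ j ih =>
      intro i hi
      rw [pow_succ, pow_mul]
      refine h.iter hT hk hL hx hLc (by omega) (le_self_pow₀ hΛ1 (by positivity)) ?_
        (ih (i + 1) (by omega))
      rw [← pow_mul, ← pow_succ]
      exact le_trans (pow_le_pow_right₀ hΛ1 (Nat.pow_le_pow_right hiE (by omega))) hS
  obtain ⟨w, c, I', a1, a2, a3, a4, a5, a6⟩ := key (k + 1) 0 rfl
  exact ⟨w, c, I', a1, a2, a3, a4, a5, fun _ => a6 (by omega)⟩

end Crest.Agent.N76.Pk
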