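import Crest.Agent.N76.Pk.Bush
import Crest.Agent.N76.Pk.Cone

/-! # Row 76, PLANK lemma (helper95): one step (the thickness of the slab drops by a factor `S`). -/

set_option autoImplicit false

open Finset
open scoped RealInnerProductSpace

namespace Crest.Agent.N76.Pk

open Crest.Agent.N76.Red (V)

variable {d : ℕ} {α ι : Type*} [DecidableEq α] [DecidableEq ι]
variable {D : Dat d α ι} {Y : Finset α} {I J : Finset (α × ι)} {L : Finset ι} {S T N P Λ : ℝ}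

/-- pruning: a large part with rich points and locally full lines -/
lemma Bas.prune (h : Bas D Y I S T N P Λ) {m : ℕ} (hT : T = S ^ m) (hm : (m : ℝ) + 2 ≤ Λ)
    (hL : ∀ p ∈ I, p.2 ∈ L) (ht : ∀ a ∈ Y, |D.t a| ≤ Λ * T)
    (hY : N * Y.card ≤ Λ * I.card) (hLc : L.card * P * T ≤ Λ * Y.card * N) :
    ∃ J ⊆ I, (I.card : ℝ) / 2 ≤ J.card ∧ Full D J S N P (Λ ^ 5) m := by
  have h10 := h.ten
  have hΛ0 : 0 < Λ := by linarith
  have hS2 := h.hS
  have hS1 : 1 ≤ S := by linarith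
  have hS0 : 0 < S := by linarith
  have hN := h.hN
  have hP := h.hP
  have hT0 := h.hT
  set f : ℕ → α × ι → α ⊕ (ι × ℤ) := fun j p =>
    if j = m + 1 then Sum.inl p.1 else Sum.inr (p.2, ⌊D.t p.1 / S ^ j⌋) with hf
  set θ : ℕ → ℝ := fun j => if j = m + 1 then N / Λ ^ 5 else P * S ^ j / Λ ^ 5 with hθ
  obtain ⟨J, hJ, hc, hfib⟩ := core I (range (m + 2)) f θ (fun j _ => by
    simp only [hθ]; split_ifs <;> positivity)
  have hterm : ∀ j ∈ range (m + 2), θ j * ((I.image (f j)).card : ℝ) ≤ 5 * I.card / Λ ^ 2 := by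
    intro j hj
    have hI0 : (0 : ℝ) ≤ I.card := Nat.cast_nonneg _
    by_cases e : j = m + 1
    · have h1 : (I.image (f j)).card ≤ Y.card := by
        refine le_trans (card_le_card ?_) (card_image_le (s := Y) (f := Sum.inl))
        intro c hc
        obtain ⟨p, hp, rfl⟩ := mem_image.1 hc
        simp only [hf, if_pos e]
        exact mem_image_of_mem _ (h.mem p hp)
      have h2 : ((I.image (f j)).card : ℝ) ≤ Y.card := by exact_mod_cast h1
      simp only [hθ, if_pos e]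
      calc N / Λ ^ 5 * ((I.image (f j)).card : ℝ) ≤ N / Λ ^ 5 * Y.card := by gcongr
        _ = N * Y.card / Λ ^ 5 := by ring
        _ ≤ Λ * I.card / Λ ^ 5 := by gcongr
        _ = I.card / Λ ^ 4 := by field_simp
        _ ≤ 5 * I.card / Λ ^ 2 := by
            gcongr
            · linarith
            · linarith
            · norm_num
    · have hjm : j ≤ m := by have := mem_range.1 hj; omega
      have hSj : 0 < S ^ j := by positivity
      have hA : 1 ≤ Λ * T / S ^ j := by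
        rw [one_le_div hSj, hT]
        nlinarith [pow_le_pow_right₀ hS1 hjm]
      have h1 : (I.image (f j)).card ≤ (L ×ˢ Icc (-⌈Λ * T / S ^ j⌉) ⌈Λ * T / S ^ j⌉).card := by
        refine le_trans (card_le_card ?_) (card_image_le (f := Sum.inr))
        intro c hc
        obtain ⟨p, hp, rfl⟩ := mem_image.1 hc
        simp only [hf, if_neg e]
        refine mem_image_of_mem _ (mem_product.2 ⟨hL p hp, floor_mem ?_⟩)
        rw [abs_div, abs_of_pos hSj]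
        exact div_le_div_of_nonneg_right (ht _ (h.mem p hp)) hSj.le
      have h2 : ((I.image (f j)).card : ℝ) ≤ L.card * (5 * (Λ * T / S ^ j)) := by
        refine (Nat.cast_le.2 h1).trans ?_
        rw [card_product, Nat.cast_mul]
        gcongr
        exact card_Icc_le hA
      simp only [hθ, if_neg e]
      calc P * S ^ j / Λ ^ 5 * ((I.image (f j)).card : ℝ)
          ≤ P * S ^ j / Λ ^ 5 * (L.card * (5 * (Λ * T / S ^ j))) := by gcongr
        _ = 5 * (L.card * P * T) / Λ ^ 4 := by field_simp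
        _ ≤ 5 * (Λ * (N * Y.card)) / Λ ^ 4 := by gcongr 5 * ?_ / _; linarith
        _ ≤ 5 * (Λ * (Λ * I.card)) / Λ ^ 4 := by gcongr
        _ = _ := by field_simp
  refine ⟨J, hJ, ?_, ⟨fun p hp => ?_, fun p hp j hj => ?_⟩⟩
  · have h1 := sum_le_sum hterm
    rw [sum_const, card_range, nsmul_eq_mul] at h1
    have h2 : ((m + 2 : ℕ) : ℝ) * (5 * I.card / Λ ^ 2) ≤ I.card / 2 := by
      push_cast
      calc ((m : ℝ) + 2) * (5 * I.card / Λ ^ 2) ≤ Λ * (5 * I.card / Λ ^ 2) := by gcongr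
        _ = 5 * I.card / Λ := by field_simp
        _ ≤ 5 * I.card / 10 := by gcongr
        _ = _ := by ring
    linarith
  · have := hfib (m + 1) (by simp) p hp
    simp only [hθ, hf, if_true, Sum.inl.injEq] at this
    exact this
  · have := hfib j (mem_range.2 (by omega)) p hp
    have e : j ≠ m + 1 := by omega
    simp only [hθ, hf, if_neg e, Sum.inr.injEq, Prod.mk.injEq] at this
    refine this.trans (Nat.cast_le.2 (card_le_card fun q hq => ?_))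
    rw [mem_filter] at hq ⊢
    exact ⟨hq.1, hq.2.1, abs_sub_le_of_floor (by positivity) hq.2.2⟩

/-- exponent of the passage to the cone lemma -/
def bE (d k : ℕ) : ℕ := (mE d + 3) * (k + 1) + 1

lemma bE_ge (d k : ℕ) : (mE d + 3) * k + 3 * d + 12 ≤ bE d k := by
  unfold bE mE; nlinarith

lemma box_near (h : Bas D Y J S T N P Λ) {k : ℕ} (hT : T = S ^ (k + 1)) (hk : (k : ℝ) + 2 ≤ Λ)
    {a a' : α} (ha : a ∈ box D J S T Λ k a') :
    |D.t a - D.t a'| ≤ 2 * S ^ k ∧ ‖D.x a - D.x a'‖ ≤ 4 * Λ * S ^ k ∧ |D.H a - D.H a'| ≤ Λ ^ 3 := by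
  obtain ⟨-, c1, c2, c3⟩ := mem_filter.1 ha
  refine ⟨c1, c2, c3.trans ?_⟩
  have h10 := h.ten
  have hS0 : 0 < S := by linarith [h.hS]
  have : Λ * S / T * S ^ k = Λ := by rw [hT]; field_simp; ring
  have e : 2 * (Λ * S / T) * S ^ k + 2 * (k + 1) * Λ = 2 * (k + 2) * Λ := by
    rw [mul_assoc 2, this]; ring
  rw [e]
  nlinarith [mul_le_mul_of_nonneg_right hk (show 0 ≤ Λ by linarith)]

lemma col_of (h : Bas D Y J S T N P Λ) {k : ℕ} (hT : T = S ^ (k + 1)) (hk : (k : ℝ) + 2 ≤ Λ)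
    {a a' a₁ a₂ a'' : α} {l : ι} (ha : (a, l) ∈ J) (h₁ : (a₁, l) ∈ J) (h₂ : (a₂, l) ∈ J)
    (b₁ : a₁ ∈ box D J S T Λ k a') (b₂ : a'' ∈ box D J S T Λ k a₂)
    (f₁ : T / Λ ^ (3 * d + 7) ≤ |D.t a₁ - D.t a|) (g₁ : |D.t a₁ - D.t a| ≤ T)
    (f₂ : T / Λ ^ (3 * d + 7) ≤ |D.t a₂ - D.t a|) (g₂ : |D.t a₂ - D.t a| ≤ T) :
    Col (fun a => (S ^ k)⁻¹ • D.x a) D.H (Λ ^ bE d k) a a' a'' := by
  have h10 := h.ten
  have hΛ0 : 0 < Λ := by linarith
  have hΛ1 : 1 ≤ Λ := by linarith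
  have hS1 : 1 ≤ S := by linarith [h.hS]
  have hT0 := h.hT
  have hΛ2 : 100 ≤ Λ ^ 2 := by nlinarith
  have hΛ3 : Λ ^ 3 = Λ ^ 2 * Λ := by ring
  set r := S ^ k with hr
  have hr1 : 1 ≤ r := one_le_pow₀ hS1
  set Q := Λ ^ (3 * d + 7) with hQ
  have hQ1 : 1 ≤ Q := one_le_pow₀ hΛ1
  have hbig : Λ ^ 4 * Q ≤ Λ ^ bE d k := by
    rw [hQ, ← pow_add]; exact pow_le_pow_right₀ hΛ1 (by have := bE_ge d k; omega)
  have hQb : Q ≤ Λ ^ bE d k := le_trans (le_mul_of_one_le_left (by linarith) (one_le_pow₀ hΛ1)) hbig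
  obtain ⟨-, x1, y1⟩ := box_near h hT hk b₁
  obtain ⟨-, x2, y2⟩ := box_near h hT hk b₂
  obtain ⟨u1, v1⟩ := h.two ha h₁
  obtain ⟨u2, v2⟩ := h.two ha h₂
  have hpos : 0 < |D.t a₁ - D.t a| := lt_of_lt_of_le (by positivity) f₁
  have hne : D.t a₁ - D.t a ≠ 0 := abs_pos.1 hpos
  set μ := (D.t a₂ - D.t a) / (D.t a₁ - D.t a) with hμ
  have hμ1 : μ * (D.t a₁ - D.t a) = D.t a₂ - D.t a := div_mul_cancel₀ _ hne
  have hμQ : |μ| ≤ Q := by
    rw [hμ, abs_div, div_le_iff₀ hpos]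
    calc |D.t a₂ - D.t a| ≤ T := g₂
      _ = Q * (T / Q) := by field_simp
      _ ≤ _ := by gcongr
  refine ⟨μ, ?_, hμQ.trans hQb, ?_, ?_⟩
  · rw [hμ, abs_div, le_div_iff₀ hpos]
    calc 1 / Λ ^ bE d k * |D.t a₁ - D.t a| ≤ 1 / Q * T := by gcongr
      _ = T / Q := by ring
      _ ≤ _ := f₂
  · have e : r⁻¹ • D.x a'' - r⁻¹ • D.x a - μ • (r⁻¹ • D.x a' - r⁻¹ • D.x a) =
        r⁻¹ • ((D.x a'' - D.x a₂) + (D.x a₂ - D.x a - (D.t a₂ - D.t a) • D.v l)
          - μ • (D.x a₁ - D.x a - (D.t a₁ - D.t a) • D.v l) + μ • (D.x a₁ - D.x a')) := by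
      rw [← hμ1]
      simp only [smul_sub, smul_add, mul_smul, smul_comm μ r⁻¹]
      abel
    simp only []
    rw [e, norm_smul, norm_inv, Real.norm_eq_abs, abs_of_pos (by linarith), inv_mul_le_iff₀
      (by linarith)]
    have n1 : ‖μ • (D.x a₁ - D.x a - (D.t a₁ - D.t a) • D.v l)‖ ≤ Q * (2 * Λ) := by
      rw [norm_smul, Real.norm_eq_abs]; exact mul_le_mul hμQ u1 (norm_nonneg _) (by linarith)
    have n2 : ‖μ • (D.x a₁ - D.x a')‖ ≤ Q * (4 * Λ * r) := by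
      rw [norm_smul, Real.norm_eq_abs]; exact mul_le_mul hμQ x1 (norm_nonneg _) (by linarith)
    refine ((norm_add_le _ _).trans (add_le_add ((norm_sub_le _ _).trans
      (add_le_add ((norm_add_le _ _).trans (add_le_add x2 u2)) n1)) n2)).trans ?_
    have a1 : Λ * r ≤ Q * (Λ * r) := le_mul_of_one_le_left (by positivity) hQ1
    have a2 : Λ ≤ Λ * r := le_mul_of_one_le_right hΛ0.le hr1
    have a3 : Q * Λ ≤ Q * (Λ * r) := by gcongr
    have a4 : 12 * (Q * (Λ * r)) ≤ Λ ^ 3 * (Q * (Λ * r)) := by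
      gcongr; nlinarith
    calc _ ≤ 12 * (Q * (Λ * r)) := by nlinarith
      _ ≤ r * (Λ ^ 4 * Q) := by nlinarith
      _ ≤ _ := by gcongr
  · have e : D.H a'' - D.H a - μ * (D.H a' - D.H a) =
        (D.H a'' - D.H a₂) + (D.H a₂ - D.H a - (D.t a₂ - D.t a) * D.s l)
          - μ * (D.H a₁ - D.H a - (D.t a₁ - D.t a) * D.s l) + μ * (D.H a₁ - D.H a') := by
      rw [← hμ1]; ring
    rw [e]
    have n1 : |μ * (D.H a₁ - D.H a - (D.t a₁ - D.t a) * D.s l)| ≤ Q * (2 * Λ) := by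
      rw [abs_mul]; exact mul_le_mul hμQ v1 (abs_nonneg _) (by linarith)
    have n2 : |μ * (D.H a₁ - D.H a')| ≤ Q * Λ ^ 3 := by
      rw [abs_mul]; exact mul_le_mul hμQ y1 (abs_nonneg _) (by linarith)
    refine ((abs_add_le _ _).trans (add_le_add ((abs_sub _ _).trans
      (add_le_add ((abs_add_le _ _).trans (add_le_add y2 v2)) n1)) n2)).trans (le_trans ?_ hbig)
    have a1 : Λ ^ 3 ≤ Q * Λ ^ 3 := le_mul_of_one_le_left (by positivity) hQ1
    have a2 : 2 * Λ ≤ Λ ^ 3 := by nlinarith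
    have a3 : Q * (2 * Λ) ≤ Q * Λ ^ 3 := by gcongr
    have a4 : Λ ^ 4 * Q = Λ * (Q * Λ ^ 3) := by ring
    nlinarith [pow_pos hΛ0 3]

open Classical in
lemma ray_card (h : Bas D Y J S T N P Λ) {k : ℕ} (hF : Full D J S N P Λ (k + 1))
    (hT : T = S ^ (k + 1)) (hk : (k : ℝ) + 2 ≤ Λ) (hS : Λ ^ (3 * d + 7) ≤ S) {a a' : α}
    (ha : a ∈ reach D J S Λ k (box D J S T Λ k a')) :
    P * (S ^ k) ^ (d + 1) * S / Λ ^ bE d k ≤ (((J.image Prod.fst).filter fun a'' =>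
      Col (fun a => (S ^ k)⁻¹ • D.x a) D.H (Λ ^ bE d k) a a' a'').card : ℝ) := by
  have h10 := h.ten
  have hΛ0 : 0 < Λ := by linarith
  have hΛ1 : 1 ≤ Λ := by linarith
  have hS1 : 1 ≤ S := by linarith [h.hS]
  have hS0 : 0 < S := by linarith
  have hP := h.hP
  have hr1 : 1 ≤ S ^ k := one_le_pow₀ hS1
  obtain ⟨-, a₁, b₁, l, h₁, hal, f₁, g₁⟩ := mem_filter.1 ha
  rw [← hT, abs_sub_comm] at f₁ g₁
  set G := (J.filter fun q => q.2 = l ∧ |D.t q.1 - D.t a| ≤ S ^ (k + 1)).filter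
    fun q => S ^ (k + 1) / Λ ^ (3 * d + 7) ≤ |D.t q.1 - D.t a| with hG
  have hGc : P * S ^ (k + 1) / (2 * Λ) ≤ (G.card : ℝ) :=
    h.far (p := (a, l)) (hS.trans (le_self_pow₀ hS1 (by omega))) _ (filter_subset _ _)
      (fun q hq => (mem_filter.1 hq).2.1) (hF.loc _ hal (k + 1) le_rfl)
  have hGm : ∀ q ∈ G, q ∈ J ∧ q.2 = l ∧ |D.t q.1 - D.t a| ≤ T ∧
      T / Λ ^ (3 * d + 7) ≤ |D.t q.1 - D.t a| := fun q hq => by
    simp only [hG, mem_filter] at hq
    rw [hT]; exact ⟨hq.1.1, hq.1.2.1, hq.1.2.2, hq.2⟩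
  set W := (G ×ˢ J.image Prod.fst).filter fun w => w.2 ∈ box D J S T Λ k w.1.1 with hW
  have h1 : G.card * (P * (S ^ k) ^ (d + 1) / Λ ^ ((mE d + 3) * k + 1)) ≤ (W.card : ℝ) := by
    refine le_card_fib W Prod.fst G fun q hq => ?_
    refine (h.heavy hF hS (mem_image_of_mem _ (hGm q hq).1) k (by omega)).trans
      (Nat.cast_le.2 (card_le_card_of_injOn (fun b => (q, b)) (fun b hb => ?_) ?_))
    · simp only [coe_filter, Set.mem_ofPred_eq, hW, mem_filter, mem_product] at hb ⊢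
      exact ⟨⟨⟨hq, (mem_filter.1 hb).1⟩, hb⟩, trivial⟩
    · intro b _ b' _ e; exact (Prod.ext_iff.1 e).2
  set R := (J.image Prod.fst).filter fun a'' =>
      Col (fun a => (S ^ k)⁻¹ • D.x a) D.H (Λ ^ bE d k) a a' a'' with hR
  have h2 : (W.card : ℝ) ≤ R.card * (Λ ^ (3 * d + 5) * P * (2 * S ^ k)) := by
    refine card_le_fib W Prod.snd R (fun w hw => ?_) fun b _ => ?_
    · simp only [hW, mem_filter, mem_product] at hw
      obtain ⟨q1, q2, q3, q4⟩ := hGm _ hw.1.1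
      exact mem_filter.2 ⟨hw.1.2, col_of h hT hk hal h₁ (by rw [← q2]; exact q1) b₁ hw.2 f₁ g₁
        q4 q3⟩
    · have e : ((W.filter fun w => w.2 = b).image Prod.fst).card =
          (W.filter fun w => w.2 = b).card := card_image_of_injOn fun w hw w' hw' e =>
        Prod.ext e ((mem_filter.1 hw).2.trans (mem_filter.1 hw').2.symm)
      rw [← e]
      refine h.line_card l (D.t b) (by linarith) _ (fun p hp => ?_) (fun p hp => ?_)
      · obtain ⟨w, hw, rfl⟩ := mem_image.1 hp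
        simp only [hW, mem_filter, mem_product] at hw
        exact (hGm _ hw.1.1.1).1
      · obtain ⟨w, hw, rfl⟩ := mem_image.1 hp
        simp only [hW, mem_filter, mem_product] at hw
        refine ⟨(hGm _ hw.1.1.1).2.1, ?_⟩
        rw [abs_sub_comm, ← hw.2]
        exact (box_near h hT hk hw.1.2).1
  have h3 : P * S ^ (k + 1) / (Λ * Λ) * (P * (S ^ k) ^ (d + 1) / Λ ^ ((mE d + 3) * k + 1)) ≤
      R.card * (Λ ^ (3 * d + 5) * P * (Λ * S ^ k)) := by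
    calc _ ≤ P * S ^ (k + 1) / (2 * Λ) *
          (P * (S ^ k) ^ (d + 1) / Λ ^ ((mE d + 3) * k + 1)) := by gcongr; linarith
      _ ≤ G.card * (P * (S ^ k) ^ (d + 1) / Λ ^ ((mE d + 3) * k + 1)) := by gcongr
      _ ≤ _ := h1.trans h2
      _ ≤ _ := by gcongr; linarith
  have h4 : P * (S ^ k) ^ (d + 1) * S / Λ ^ ((mE d + 3) * k + 3 * d + 9) ≤ (R.card : ℝ) := by
    have e : P * (S ^ k) ^ (d + 1) * S / Λ ^ ((mE d + 3) * k + 3 * d + 9) =
        P * S ^ (k + 1) / (Λ * Λ) * (P * (S ^ k) ^ (d + 1) / Λ ^ ((mE d + 3) * k + 1)) /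
          (Λ ^ (3 * d + 5) * P * (Λ * S ^ k)) := by field_simp; ring
    rw [e, div_le_iff₀ (by positivity)]
    exact h3
  refine le_trans ?_ h4
  gcongr
  have := bE_ge d k; omega

lemma coneHyp_of (h : Bas D Y J S T N P Λ) {k : ℕ} (hF : Full D J S N P Λ (k + 1))
    (hT : T = S ^ (k + 1)) (hk : (k : ℝ) + 2 ≤ Λ) (hS : (Λ ^ bE d k) ^ (3 * d + 7) ≤ S)
    (hx : ∀ a ∈ Y, ‖D.x a‖ ≤ Λ * T) (hH : ∀ p ∈ J, |D.H p.1| ≤ Λ * S) :
    ConeHyp (J.image Prod.fst) (fun a => (S ^ k)⁻¹ • D.x a) D.H (P * (S ^ k) ^ (d + 1)) S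
      (Λ ^ bE d k) := by
  classical
  have h10 := h.ten
  have hΛ0 : 0 < Λ := by linarith
  have hΛ1 : 1 ≤ Λ := by linarith
  have hS1 : 1 ≤ S := by linarith [h.hS]
  have hS0 : 0 < S := by linarith
  have hP := h.hP
  have hr1 : 1 ≤ S ^ k := one_le_pow₀ hS1
  have hr0 : 0 < S ^ k := by linarith
  have hb := bE_ge d k
  have hΛb : Λ ≤ Λ ^ bE d k := le_self_pow₀ hΛ1 (by omega)
  have hS' : Λ ^ (3 * d + 7) ≤ S := (pow_le_pow_left₀ hΛ0.le hΛb _).trans hS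
  have hZ : J.image Prod.fst ⊆ Y := fun a ha => by
    obtain ⟨p, hp, rfl⟩ := mem_image.1 ha
    exact h.mem p hp
  refine ⟨by positivity, h.hΛ.trans hΛb,
    (pow_le_pow_right₀ (hΛ1.trans hΛb) (by omega)).trans hS, fun a ha => ⟨?_, ?_⟩, fun z => ?_,
    fun a' ha' => ?_⟩
  · rw [norm_smul, norm_inv, Real.norm_eq_abs, abs_of_pos hr0, inv_mul_le_iff₀ hr0]
    calc ‖D.x a‖ ≤ Λ * T := hx a (hZ ha)
      _ = S ^ k * (Λ * S) := by rw [hT]; ring
      _ ≤ _ := by gcongr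
  · obtain ⟨p, hp, rfl⟩ := mem_image.1 ha
    exact (hH p hp).trans (by gcongr)
  · refine (h.mult.ball one_pos hr1 (S ^ k • z) _ ((filter_subset _ _).trans hZ)
      (fun a ha => ?_)).trans ?_
    · have := (mem_filter.1 ha).2
      have e : D.x a - S ^ k • z = S ^ k • ((S ^ k)⁻¹ • D.x a - z) := by
        rw [smul_sub, smul_inv_smul₀ hr0.ne']
      rw [e, norm_smul, Real.norm_eq_abs, abs_of_pos hr0]
      gcongr
    · push_cast
      calc Λ * P * (5 * ((d : ℝ) + 1 + 1) * S ^ k) ^ (d + 1) ≤ Λ * P * (Λ * S ^ k) ^ (d + 1) := by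
            gcongr; linarith [h.hΛ]
        _ = Λ ^ (d + 2) * (P * (S ^ k) ^ (d + 1)) := by ring
        _ ≤ _ := by gcongr; omega
  · have h1 := h.reach_card hF hS' le_rfl a' (box D J S T Λ k a') (filter_subset _ _)
      (fun a ha => ⟨(mem_filter.1 ha).2.1, (mem_filter.1 ha).2.2.1⟩)
    have h2 := h.heavy hF hS' ha' k (by omega)
    calc P * (S ^ k) ^ (d + 1) * S ^ (d + 1) / Λ ^ bE d k
        = P * (S ^ k) ^ (d + 1) / Λ ^ ((mE d + 3) * k + 1) * S ^ (d + 1) / Λ ^ (mE d + 3) := by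
          rw [bE]; field_simp; ring
      _ ≤ (box D J S T Λ k a').card * S ^ (d + 1) / Λ ^ (mE d + 3) := by gcongr
      _ ≤ _ := h1
      _ ≤ _ := Nat.cast_le.2 (card_le_card fun a ha =>
          mem_filter.2 ⟨(mem_filter.1 ha).1, ray_card h hF hT hk hS' ha⟩)

end Crest.Agent.N76.Pk
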